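import Vale.Agent.Lib.P174.Rational

/-!
Abelian groups satisfy Howie's property (characters into `ℚ/ℤ`), and the unconditional corollaries.
-/

namespace Vale.Agent.Lib.P174

open Monoid

universe u

theorem howie_of_comm {B : Type u} [Group B] (hc : ∀ a b : B, a * b = b * a) :
    HowieProperty B := by
  classical
  intro m n w hw
  rw [solvableOver_iff]
  intro g hg
  by_contra hne
  let cb : CommGroup B := { (inferInstance : Group B) with mul_comm := hc }
  obtain ⟨Bm, D, hD, hAB⟩ := exists_int_right_inverse (exponentMatrix w) hw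
  have hg0 : Additive.ofMul g ≠ 0 := fun h => hne (Additive.ofMul.injective h)
  obtain ⟨c, hc0⟩ := CharacterModule.exists_character_apply_ne_zero_of_ne_zero hg0
  let C := AddCircle (1 : ℚ)
  let κ : B →* Multiplicative C :=
    MonoidHom.mk' (fun b => Multiplicative.ofAdd (c (Additive.ofMul b)))
      (by intro a b; simp)
  let Ψ0 : Coprod B (FreeGroup (Fin n)) →* Multiplicative C := Coprod.lift κ 1
  -- divisibility of `ℚ/ℤ`
  have hdiv : ∀ x : C, ∃ η : C, D • η = x := by
    intro x
    obtain ⟨q, rfl⟩ := QuotientAddGroup.mk_surjective x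
    refine ⟨((q / D : ℚ) : AddCircle (1 : ℚ)), ?_⟩
    have hD' : (D : ℚ) ≠ 0 := by exact_mod_cast hD
    change D • (QuotientAddGroup.mk (q / D : ℚ) : AddCircle (1 : ℚ)) = QuotientAddGroup.mk q
    rw [← QuotientAddGroup.mk_zsmul]
    congr 1
    rw [zsmul_eq_mul]
    field_simp
  choose η hη using fun i : Fin m => hdiv (-(Multiplicative.toAdd (Ψ0 (w i))))
  let ξ : Fin n → C := fun j => ∑ i, Bm j i • η i
  let Ψ : Coprod B (FreeGroup (Fin n)) →* Multiplicative C :=
    Coprod.lift κ (FreeGroup.lift fun j => Multiplicative.ofAdd (ξ j))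
  have key : ∀ t, Multiplicative.toAdd (Ψ t) = Multiplicative.toAdd (Ψ0 t)
      + ∑ j, (Multiplicative.toAdd (exponentSum B n t) j) • ξ j := by
    intro t
    induction t using Coprod.induction_on with
    | inl b => simp [Ψ, Ψ0, exponentSum]
    | inr f =>
      induction f using FreeGroup.induction_on with
      | C1 => simp
      | of y =>
        have h1 : ∑ j, (Pi.single y (1 : ℤ) : Fin n → ℤ) j • ξ j = ξ y := by
          rw [Finset.sum_eq_single y]
          · simp
          · intro j _ hj
            simp [Pi.single_apply, hj]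
          · simp
        simp [Ψ, Ψ0, exponentSum, h1]
      | inv_of y ih =>
        simp only [map_inv, toAdd_inv, Pi.neg_apply, neg_smul, Finset.sum_neg_distrib]
        rw [ih]
        abel
      | mul a b ha hb =>
        simp only [map_mul, toAdd_mul, Pi.add_apply, add_smul, Finset.sum_add_distrib]
        rw [ha, hb]
        abel
    | mul a b ha hb =>
      simp only [map_mul, toAdd_mul, Pi.add_apply, add_smul, Finset.sum_add_distrib]
      rw [ha, hb]
      abel
  have hkill : ∀ i, Ψ (w i) = 1 := by
    intro i
    apply Multiplicative.toAdd.injective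
    rw [key]
    have h1 : ∑ j, (Multiplicative.toAdd (exponentSum B n (w i)) j) • ξ j
        = ∑ k, ((exponentMatrix w) * Bm) i k • η k := by
      simp only [ξ, Finset.smul_sum, smul_smul, Matrix.mul_apply, Finset.sum_smul]
      rw [Finset.sum_comm]
      rfl
    rw [h1, hAB]
    have h2 : ∑ k, (D • (1 : Matrix (Fin m) (Fin m) ℤ)) i k • η k = D • η i := by
      rw [Finset.sum_eq_single i]
      · simp
      · intro k _ hk
        simp [Matrix.one_apply, hk.symm]
      · simp
    rw [h2, hη i]
    simp
  have hle : Subgroup.normalClosure (Set.range w) ≤ Ψ.ker := by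
    apply Subgroup.normalClosure_le_normal
    rintro _ ⟨i, rfl⟩
    exact hkill i
  have h3 : Ψ (Coprod.inl g) = 1 := hle hg
  apply hc0
  have h4 : κ g = 1 := by simpa [Ψ] using h3
  exact Multiplicative.ofAdd.injective h4

variable {G : Type u} [Group G]

/-- If every finitely generated subgroup of `G` with no homomorphism onto `ℤ` is abelian, then `G`
has Howie's property. -/
theorem howie_of_fg_abelian
    (h : ∀ S : Subgroup G, S.FG → (∀ χ : S →* Multiplicative ℤ, χ = 1) →
      ∀ a b : S, a * b = b * a) : HowieProperty G := by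
  apply howie_of_top
  intro S hS hfree
  exact howie_of_comm (h S hS hfree)

/-- Howie's theorem: locally indicable groups have Howie's property. -/
theorem howie_of_locallyIndicable (h : LocallyIndicable G) : HowieProperty G := by
  apply howie_of_fg_abelian
  intro S hS hfree a b
  by_cases hbot : S = ⊥
  · subst hbot
    exact Subsingleton.elim _ _
  · obtain ⟨f, hf⟩ := h S hS hbot
    rw [hfree f] at hf
    obtain ⟨y, hy⟩ := hf (Multiplicative.ofAdd 1)
    simp only [MonoidHom.one_apply] at hy
    exact absurd (Multiplicative.ofAdd.injective hy).symm one_ne_zero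

/-- An abelian normal subgroup with locally indicable quotient. -/
theorem howie_abelian_by_locallyIndicable (N : Subgroup G) [N.Normal]
    (hN : ∀ a ∈ N, ∀ b ∈ N, a * b = b * a) (hQ : LocallyIndicable (G ⧸ N)) : HowieProperty G := by
  apply howie_extension N hQ
  apply howie_of_comm
  rintro ⟨a, ha⟩ ⟨b, hb⟩
  exact Subtype.ext (hN a ha b hb)

end Vale.Agent.Lib.P174
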