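import Vale.Agent.Lib.P174.Words

/-!
The cover step: an identity in `S ∗ F(Y)`, where `S` is a subgroup of `G` with a homomorphism to an
abelian group `A`, rewrites to an identity in `G ∗ F(Y × A)`; and a map back.
-/

namespace Vale.Agent.Lib.P174

open Monoid

universe u

section Cover

variable {G Y : Type u} [Group G] {A : Type} [CommGroup A]

/-- Letter-values in the ambient free product. -/
def inT (g : G) : Coprod G (FreeGroup Y) := Coprod.inl g

/-- Unknowns in the ambient free product. -/
def varT {G : Type u} [Group G] (y : Y) : Coprod G (FreeGroup Y) := Coprod.inr (FreeGroup.of y)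

/-- Value of a word in the ambient free product. -/
def evalT (w : List (Letter G Y)) : Coprod G (FreeGroup Y) := wval inT varT w

/-- Coefficients in the free product over a subgroup. -/
noncomputable def coefS (S : Subgroup G) (g : G) : Coprod S (FreeGroup Y) :=
  open Classical in if h : g ∈ S then Coprod.inl ⟨g, h⟩ else 1

/-- Heights of coefficients. -/
noncomputable def hgt {S : Subgroup G} (χ : S →* A) (g : G) : A :=
  open Classical in if h : g ∈ S then χ ⟨g, h⟩ else 1

theorem coefS_of_mem (S : Subgroup G) {g : G} (h : g ∈ S) :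
    (coefS S g : Coprod S (FreeGroup Y)) = Coprod.inl ⟨g, h⟩ := by
  simp [coefS, h]

theorem hgt_of_mem {S : Subgroup G} (χ : S →* A) {g : G} (h : g ∈ S) : hgt χ g = χ ⟨g, h⟩ := by
  simp [hgt, h]

/-- The height homomorphism on `S ∗ F(Y)`. -/
def psi {S : Subgroup G} (χ : S →* A) (hx : Y → A) : Coprod S (FreeGroup Y) →* A :=
  Coprod.lift χ (FreeGroup.lift hx)

theorem psi_wval {S : Subgroup G} (χ : S →* A) (hx : Y → A) (w : List (Letter G Y)) :
    psi χ hx (wval (coefS S) varT w) = wval (hgt χ) hx w := by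
  rw [map_wval]
  congr 1
  · funext g
    by_cases h : g ∈ S
    · simp [coefS, hgt, h, psi]
    · simp [coefS, hgt, h]
  · funext y
    simp [varT, psi]

/-- Action of a coefficient on pairs (height, element). -/
noncomputable def permS {S : Subgroup G} (χ : S →* A) (sec : A → G) (v : S) :
    Equiv.Perm (A × Coprod G (FreeGroup (Y × A))) where
  toFun p := (p.1 * (χ v)⁻¹, Coprod.inl (sec (p.1 * (χ v)⁻¹) * (v : G) * (sec p.1)⁻¹) * p.2)
  invFun p := (p.1 * χ v, (Coprod.inl (sec p.1 * (v : G) * (sec (p.1 * χ v))⁻¹))⁻¹ * p.2)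
  left_inv := by
    rintro ⟨h, t⟩
    simp only [inv_mul_cancel_right, inv_mul_cancel_left]
  right_inv := by
    rintro ⟨h, t⟩
    simp only [mul_inv_cancel_right, mul_inv_cancel_left]

/-- Action of an unknown on pairs (height, element). -/
noncomputable def permY {G : Type u} [Group G] (hx : Y → A) (y : Y) :
    Equiv.Perm (A × Coprod G (FreeGroup (Y × A))) where
  toFun p := (p.1 * (hx y)⁻¹, Coprod.inr (FreeGroup.of (y, p.1 * (hx y)⁻¹)) * p.2)
  invFun p := (p.1 * hx y, (Coprod.inr (FreeGroup.of (y, p.1)))⁻¹ * p.2)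
  left_inv := by
    rintro ⟨h, t⟩
    simp
  right_inv := by
    rintro ⟨h, t⟩
    simp

/-- The homomorphism form of `permS`. -/
noncomputable def homS {S : Subgroup G} (χ : S →* A) (sec : A → G) :
    S →* Equiv.Perm (A × Coprod G (FreeGroup (Y × A))) :=
  MonoidHom.mk' (permS χ sec) (by
    intro a b
    ext ⟨h, t⟩
    · simp [permS, mul_comm, mul_assoc, mul_left_comm]
    · simp only [permS, Equiv.Perm.coe_mul, Function.comp, Equiv.coe_fn_mk]
      have e1 : h * (χ (a * b))⁻¹ = h * (χ b)⁻¹ * (χ a)⁻¹ := by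
        simp [mul_comm, mul_left_comm]
      rw [e1, ← mul_assoc, ← map_mul]
      simp only [Subgroup.coe_mul, mul_assoc, inv_mul_cancel_left])

/-- The action of the whole free product. -/
noncomputable def Phi {S : Subgroup G} (χ : S →* A) (hx : Y → A) (sec : A → G) :
    Coprod S (FreeGroup Y) →* Equiv.Perm (A × Coprod G (FreeGroup (Y × A))) :=
  Coprod.lift (homS χ sec) (FreeGroup.lift (permY hx))

/-- Values of rewritten words in the new ambient free product. -/
abbrev evalT' (w : List (Letter G (Y × A))) : Coprod G (FreeGroup (Y × A)) := evalT w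

/-- A word is valid for `S` when all its coefficients lie in `S`. -/
def Valid (S : Subgroup G) (w : List (Letter G Y)) : Prop := ∀ g, Letter.coef g ∈ w → g ∈ S

theorem Phi_letter {S : Subgroup G} (χ : S →* A) (hx : Y → A) (sec : A → G) (σ : Letter G Y)
    (hσ : ∀ g, σ = Letter.coef g → g ∈ S) (h : A) (t : Coprod G (FreeGroup (Y × A))) :
    Phi χ hx sec (lval (coefS S) varT σ) (h * lval (hgt χ) hx σ, t)
      = (h, evalT (liftL sec (hgt χ) hx σ h) * t) := by
  rcases σ with g | ⟨y, b⟩
  · have hg := hσ g rfl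
    have hv : Phi χ hx sec (coefS S g) = permS χ sec ⟨g, hg⟩ := by
      rw [coefS_of_mem S hg]
      simp [Phi, homS]
    simp only [lval]
    rw [hv, hgt_of_mem χ hg]
    by_cases hk : sec h * g * (sec (h * χ ⟨g, hg⟩))⁻¹ = 1
    · simp only [permS, liftL, hgt_of_mem χ hg, hk, evalT, Equiv.coe_fn_mk, mul_inv_cancel_right]
      simp
    · simp only [permS, liftL, hgt_of_mem χ hg, hk, evalT, Equiv.coe_fn_mk, mul_inv_cancel_right]
      simp [wval, inT, lval]
  · cases b
    · have hv : Phi χ hx sec (varT y)⁻¹ = (permY hx y)⁻¹ := by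
        simp [Phi, varT]
      simp only [lval]
      rw [hv]
      simp [permY, liftL, evalT, wval, lval, varT, Equiv.Perm.inv_def]
    · have hv : Phi χ hx sec (varT y) = permY hx y := by
        simp [Phi, varT]
      simp only [lval]
      rw [hv]
      simp [permY, liftL, evalT, wval, lval, varT]

theorem evalT_append (v w : List (Letter G Y)) : evalT (v ++ w) = evalT v * evalT w := by
  simp [evalT]

theorem Phi_word {S : Subgroup G} (χ : S →* A) (hx : Y → A) (sec : A → G) (w : List (Letter G Y))
    (hw : Valid S w) (h : A) (t : Coprod G (FreeGroup (Y × A))) :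
    Phi χ hx sec (wval (coefS S) varT w) (h * wval (hgt χ) hx w, t)
      = (h, evalT (liftW sec (hgt χ) hx w h) * t) := by
  induction w generalizing h t with
  | nil => simp [evalT]
  | cons σ w ih =>
    have hw' : Valid S w := fun g hg => hw g (List.mem_cons_of_mem _ hg)
    have hσ : ∀ g, σ = Letter.coef g → g ∈ S := by
      rintro g rfl
      exact hw g List.mem_cons_self
    simp only [wval_cons, map_mul, Equiv.Perm.coe_mul, Function.comp, liftW_cons]
    have e : h * (lval (hgt χ) hx σ * wval (hgt χ) hx w)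
        = (h * lval (hgt χ) hx σ) * wval (hgt χ) hx w := by
      rw [mul_assoc]
    rw [e, ih hw' (h * lval (hgt χ) hx σ) t, Phi_letter χ hx sec σ hσ h, evalT_append, mul_assoc]

/-- The map back from the rewritten ambient free product. -/
noncomputable def iota (sec : A → G) (hx : Y → A) :
    Coprod G (FreeGroup (Y × A)) →* Coprod G (FreeGroup Y) :=
  Coprod.lift Coprod.inl (FreeGroup.lift fun q : Y × A =>
    Coprod.inl (sec q.2) * Coprod.inr (FreeGroup.of q.1) * (Coprod.inl (sec (q.2 * hx q.1)))⁻¹)

theorem iota_letter (sec : A → G) (hf : G → A) (hx : Y → A) (σ : Letter G Y) (h : A) :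
    iota sec hx (evalT (liftL sec hf hx σ h))
      = Coprod.inl (sec h) * lval inT varT σ * (Coprod.inl (sec (h * lval hf hx σ)))⁻¹ := by
  rcases σ with g | ⟨y, b⟩
  · by_cases hk : sec h * g * (sec (h * hf g))⁻¹ = 1
    · have e : Coprod.inl (sec h) * (Coprod.inl g : Coprod G (FreeGroup Y))
          * (Coprod.inl (sec (h * hf g)))⁻¹ = 1 := by
        rw [← map_inv, ← map_mul, ← map_mul, hk, map_one]
      simpa [liftL, hk, evalT, lval, inT] using e.symm
    · simp [liftL, hk, evalT, wval, lval, inT, iota]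
  · cases b
    · simp [liftL, evalT, wval, lval, varT, iota, mul_assoc]
    · simp [liftL, evalT, wval, lval, varT, iota, mul_assoc]

theorem iota_word (sec : A → G) (hf : G → A) (hx : Y → A) (w : List (Letter G Y)) (h : A) :
    iota sec hx (evalT (liftW sec hf hx w h))
      = Coprod.inl (sec h) * evalT w * (Coprod.inl (sec (h * wval hf hx w)))⁻¹ := by
  induction w generalizing h with
  | nil => simp [evalT]
  | cons σ w ih =>
    rw [liftW_cons, evalT_append, map_mul, iota_letter, ih]
    have e : h * wval hf hx (σ :: w) = h * lval hf hx σ * wval hf hx w := by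
      simp [mul_assoc]
    rw [e]
    simp [evalT, mul_assoc]

variable {I : Type u}

theorem Phi_block {S : Subgroup G} (χ : S →* A) (hx : Y → A) (sec : A → G)
    (r : I → List (Letter G Y)) (e : List (Letter G Y) × I × Bool)
    (hu : Valid S e.1) (hri : Valid S (r e.2.1)) (hr1 : wval (hgt χ) hx (r e.2.1) = 1)
    (s : Coprod G (FreeGroup (Y × A))) :
    Phi χ hx sec (blk (coefS S) varT r e) (1, s)
      = (1, blk inT varT (fun q : I × A => liftW sec (hgt χ) hx (r q.1) q.2)
          (liftW sec (hgt χ) hx e.1 1, (e.2.1, wval (hgt χ) hx e.1), e.2.2) * s) := by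
  rcases e with ⟨u, i, b⟩
  simp only at hu hri hr1
  set Φ := Phi χ hx sec with hΦ
  set U := evalT (liftW sec (hgt χ) hx u 1) with hU
  set hu' := wval (hgt χ) hx u with hhu
  set R := evalT (liftW sec (hgt χ) hx (r i) hu') with hR
  have h1 : ∀ t, Φ (wval (coefS S) varT u) (hu', t) = (1, U * t) := by
    intro t
    have := Phi_word χ hx sec u hu 1 t
    simpa using this
  have h2 : ∀ t, Φ (wval (coefS S) varT u)⁻¹ (1, t) = (hu', U⁻¹ * t) := by
    intro t
    rw [map_inv, Equiv.Perm.inv_eq_iff_eq, h1]
    simp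
  have h3 : ∀ t, Φ (wval (coefS S) varT (r i)) (hu', t) = (hu', R * t) := by
    intro t
    have := Phi_word χ hx sec (r i) hri hu' t
    rw [hr1, mul_one] at this
    exact this
  have h4 : ∀ t, Φ (sgn b (wval (coefS S) varT (r i))) (hu', t) = (hu', sgn b R * t) := by
    intro t
    cases b
    · simp only [sgn_false]
      rw [map_inv, Equiv.Perm.inv_eq_iff_eq, h3]
      simp
    · simpa using h3 t
  simp only [blk, map_mul, Equiv.Perm.coe_mul, Function.comp, h2, h4, h1]
  simp only [Prod.mk.injEq, true_and]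
  change U * (sgn b R * (U⁻¹ * s)) = U * sgn b R * U⁻¹ * s
  simp only [mul_assoc]

theorem Phi_evalE {S : Subgroup G} (χ : S →* A) (hx : Y → A) (sec : A → G)
    (r : I → List (Letter G Y)) (E : List (List (Letter G Y) × I × Bool))
    (hE : ∀ e ∈ E, Valid S e.1 ∧ Valid S (r e.2.1) ∧ wval (hgt χ) hx (r e.2.1) = 1)
    (s : Coprod G (FreeGroup (Y × A))) :
    Phi χ hx sec (evalE (coefS S) varT r E) (1, s)
      = (1, evalE inT varT (fun q : I × A => liftW sec (hgt χ) hx (r q.1) q.2)
          (E.map fun e => (liftW sec (hgt χ) hx e.1 1, (e.2.1, wval (hgt χ) hx e.1), e.2.2)) * s) := by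
  induction E generalizing s with
  | nil => simp
  | cons e E ih =>
    have he := hE e List.mem_cons_self
    have hE' : ∀ e ∈ E, Valid S e.1 ∧ Valid S (r e.2.1) ∧ wval (hgt χ) hx (r e.2.1) = 1 :=
      fun e' he' => hE e' (List.mem_cons_of_mem _ he')
    simp only [evalE_cons, map_mul, Equiv.Perm.coe_mul, Function.comp, List.map_cons]
    rw [ih hE', Phi_block χ hx sec r e he.1 he.2.1 he.2.2, mul_assoc]

theorem hgt_evalE {S : Subgroup G} (χ : S →* A) (hx : Y → A)
    (r : I → List (Letter G Y)) (E : List (List (Letter G Y) × I × Bool))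
    (hE : ∀ e ∈ E, wval (hgt χ) hx (r e.2.1) = 1) :
    psi χ hx (evalE (coefS S) varT r E) = 1 := by
  have e1 : ((psi χ hx) ∘ (coefS S) : G → A) = hgt χ := by
    funext g
    by_cases h : g ∈ S
    · simp [coefS, hgt, h, psi]
    · simp [coefS, hgt, h]
  have e2 : ((psi χ hx) ∘ (varT (G := S)) : Y → A) = hx := by
    funext y
    simp [varT, psi]
  rw [map_evalE, e1, e2]
  induction E with
  | nil => simp
  | cons e E ih =>
    have he := hE e List.mem_cons_self
    have hE' : ∀ e ∈ E, wval (hgt χ) hx (r e.2.1) = 1 :=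
      fun e' he' => hE e' (List.mem_cons_of_mem _ he')
    rw [evalE_cons, ih hE']
    simp only [blk, he]
    cases e.2.2 <;> simp

/-- The identity in `S ∗ F(Y)` rewrites to the identity in `G ∗ F(Y × A)`. -/
theorem lift_identity {S : Subgroup G} (χ : S →* A) (hx : Y → A) (sec : A → G)
    (r : I → List (Letter G Y)) (E : List (List (Letter G Y) × I × Bool)) (γ : List (Letter G Y))
    (hγ : Valid S γ)
    (hE : ∀ e ∈ E, Valid S e.1 ∧ Valid S (r e.2.1) ∧ wval (hgt χ) hx (r e.2.1) = 1)
    (hid : wval (coefS S) varT γ = evalE (coefS S) varT r E) :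
    evalT (liftW sec (hgt χ) hx γ 1)
      = evalE inT varT (fun q : I × A => liftW sec (hgt χ) hx (r q.1) q.2)
          (E.map fun e => (liftW sec (hgt χ) hx e.1 1, (e.2.1, wval (hgt χ) hx e.1), e.2.2)) := by
  have hψ : wval (hgt χ) hx γ = 1 := by
    rw [← psi_wval χ hx γ, hid]
    exact hgt_evalE χ hx r E (fun e he => (hE e he).2.2)
  have h1 := Phi_word χ hx sec γ hγ 1 1
  rw [hψ, mul_one, hid, Phi_evalE χ hx sec r E hE] at h1
  simpa using (Prod.ext_iff.mp h1).2.symm

/-- The way back: a rewritten word with trivial value has trivial value. -/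
theorem eq_one_of_lift_eq_one (sec : A → G) (hf : G → A) (hx : Y → A) (γ : List (Letter G Y))
    (hψ : wval hf hx γ = 1) (h : evalT (liftW sec hf hx γ 1) = 1) : evalT γ = 1 := by
  have h1 := iota_word sec hf hx γ 1
  rw [h, hψ, map_one, mul_one] at h1
  have h2 : (Coprod.inl (sec 1) : Coprod G (FreeGroup Y)) * evalT γ * (Coprod.inl (sec 1))⁻¹ = 1 :=
    h1.symm
  have h3 := congrArg (fun z => (Coprod.inl (sec 1) : Coprod G (FreeGroup Y))⁻¹ * z * Coprod.inl (sec 1)) h2
  simpa [mul_assoc] using h3

end Cover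

end Vale.Agent.Lib.P174
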