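import Mathlib

/-!
Statement-level definitions for Howie's conjecture on nonsingular systems over groups.
-/

namespace Vale.Agent.Lib.P174

open Monoid

universe u

/-- The homomorphism `G ∗ F_n → ℤ^n` that kills `G` and sends `x_j` to the unit vector `e_j`. -/
def exponentSum (G : Type u) [Group G] (n : ℕ) :
    Coprod G (FreeGroup (Fin n)) →* Multiplicative (Fin n → ℤ) :=
  Coprod.lift 1 (FreeGroup.lift fun j => Multiplicative.ofAdd (Pi.single j 1))

/-- The exponent-sum matrix of a system `w_1, …, w_m ∈ G ∗ F_n`. -/
def exponentMatrix {G : Type u} [Group G] {m n : ℕ} (w : Fin m → Coprod G (FreeGroup (Fin n))) :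
    Matrix (Fin m) (Fin n) ℤ :=
  fun i j => Multiplicative.toAdd (exponentSum G n (w i)) j

/-- The system is nonsingular: the exponent-sum matrix has rank `m` over `ℚ`. -/
def Nonsingular {G : Type u} [Group G] {m n : ℕ} (w : Fin m → Coprod G (FreeGroup (Fin n))) :
    Prop :=
  ((exponentMatrix w).map (Int.cast : ℤ → ℚ)).rank = m

/-- The system is nonsingular modulo `p`: the exponent-sum matrix has rank `m` over `𝔽_p`. -/
def NonsingularMod (p : ℕ) [Fact p.Prime] {G : Type u} [Group G] {m n : ℕ}
    (w : Fin m → Coprod G (FreeGroup (Fin n))) : Prop :=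
  ((exponentMatrix w).map (Int.cast : ℤ → ZMod p)).rank = m

/-- The system is solvable over `G`: the canonical map from `G` to the quotient of `G ∗ F_n` by the
normal closure of the system is injective. -/
def SolvableOver {G : Type u} [Group G] {m n : ℕ} (w : Fin m → Coprod G (FreeGroup (Fin n))) :
    Prop :=
  Function.Injective fun g : G =>
    (QuotientGroup.mk (Coprod.inl g) :
      Coprod G (FreeGroup (Fin n)) ⧸ Subgroup.normalClosure (Set.range w))

/-- `G` satisfies Howie's conjecture: every nonsingular finite system over `G` is solvable. -/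
def HowieProperty (G : Type u) [Group G] : Prop :=
  ∀ (m n : ℕ) (w : Fin m → Coprod G (FreeGroup (Fin n))), Nonsingular w → SolvableOver w

/-- Every finite system over `G` that is nonsingular modulo `p` is solvable. -/
def HowiePropertyMod (p : ℕ) [Fact p.Prime] (G : Type u) [Group G] : Prop :=
  ∀ (m n : ℕ) (w : Fin m → Coprod G (FreeGroup (Fin n))), NonsingularMod p w → SolvableOver w

/-- Every nontrivial finitely generated subgroup maps onto `ℤ`. -/
def LocallyIndicable (G : Type u) [Group G] : Prop :=
  ∀ S : Subgroup G, S.FG → S ≠ ⊥ → ∃ f : S →* Multiplicative ℤ, Function.Surjective f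

/-- Every nontrivial finitely generated subgroup maps onto `ℤ/p`. -/
def LocallyPIndicable (p : ℕ) (G : Type u) [Group G] : Prop :=
  ∀ S : Subgroup G, S.FG → S ≠ ⊥ → ∃ f : S →* Multiplicative (ZMod p), Function.Surjective f

end Vale.Agent.Lib.P174
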