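import Vale.Agent.Lib.P174.Tower

/-!
From the tower to statements about systems of equations.
-/

namespace Vale.Agent.Lib.P174

open Monoid

universe u

section Words

variable {G Y : Type u} [Group G] {I : Type u}

theorem exists_word (t : Coprod G (FreeGroup Y)) : ∃ v : List (Letter G Y), evalT v = t := by
  induction t using Coprod.induction_on with
  | inl g => exact ⟨[Letter.coef g], by simp [evalT, lval, inT]⟩
  | inr f =>
    induction f using FreeGroup.induction_on with
    | C1 => exact ⟨[], by simp [evalT]⟩
    | of y => exact ⟨[Letter.var y true], by simp [evalT, lval, varT]⟩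
    | inv_of y _ => exact ⟨[Letter.var y false], by simp [evalT, lval, varT]⟩
    | mul a b ha hb =>
      obtain ⟨v, hv⟩ := ha
      obtain ⟨w, hw⟩ := hb
      exact ⟨v ++ w, by rw [evalT_append, hv, hw, map_mul]⟩
  | mul a b ha hb =>
    obtain ⟨v, hv⟩ := ha
    obtain ⟨w, hw⟩ := hb
    exact ⟨v ++ w, by rw [evalT_append, hv, hw]⟩

/-- Reverse a product and invert each term. -/
def flipE (E : List (List (Letter G Y) × I × Bool)) : List (List (Letter G Y) × I × Bool) :=
  (E.map fun e => (e.1, e.2.1, !e.2.2)).reverse

theorem evalE_flip {P : Type*} [Group P] (f : G → P) (x : Y → P) (r : I → List (Letter G Y))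
    (E : List (List (Letter G Y) × I × Bool)) :
    evalE f x r (flipE E) = (evalE f x r E)⁻¹ := by
  induction E with
  | nil => simp [flipE]
  | cons e E ih =>
    have h1 : flipE (e :: E) = flipE E ++ [(e.1, e.2.1, !e.2.2)] := by
      simp [flipE]
    rw [h1, evalE_append, ih, evalE_cons, evalE_nil, evalE_cons, mul_one, mul_inv_rev]
    congr 1
    rcases e with ⟨u, i, b⟩
    cases b <;> simp [blk, mul_assoc]

theorem evalE_conj (r : I → List (Letter G Y)) (v : List (Letter G Y))
    (E : List (List (Letter G Y) × I × Bool)) :
    evalE inT varT r (E.map fun e => (v ++ e.1, e.2))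
      = evalT v * evalE inT varT r E * (evalT v)⁻¹ := by
  induction E with
  | nil => simp
  | cons e E ih =>
    rw [List.map_cons, evalE_cons, ih, evalE_cons]
    simp only [blk, wval_append]
    have hv : wval inT varT v = evalT v := rfl
    rw [hv]
    group

/-- The subgroup of products of conjugates of relators. -/
def exprSubgroup (r : I → List (Letter G Y)) : Subgroup (Coprod G (FreeGroup Y)) where
  carrier := {x | ∃ E, evalE inT varT r E = x}
  mul_mem' := by
    rintro _ _ ⟨E, rfl⟩ ⟨E', rfl⟩
    exact ⟨E ++ E', evalE_append _ _ _ _ _⟩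
  one_mem' := ⟨[], rfl⟩
  inv_mem' := by
    rintro _ ⟨E, rfl⟩
    exact ⟨flipE E, evalE_flip _ _ _ _⟩

instance exprSubgroup_normal (r : I → List (Letter G Y)) : (exprSubgroup r).Normal := by
  constructor
  rintro _ ⟨E, rfl⟩ t
  obtain ⟨v, rfl⟩ := exists_word t
  exact ⟨E.map fun e => (v ++ e.1, e.2), evalE_conj r v E⟩

theorem exists_E (r : I → List (Letter G Y)) (x : Coprod G (FreeGroup Y))
    (hx : x ∈ Subgroup.normalClosure (Set.range fun i => evalT (r i))) :
    ∃ E, evalE inT varT r E = x := by
  have h : Subgroup.normalClosure (Set.range fun i => evalT (r i)) ≤ exprSubgroup r := by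
    apply Subgroup.normalClosure_le_normal
    rintro _ ⟨i, rfl⟩
    refine ⟨[([], i, true)], ?_⟩
    simp [blk, evalT]
  exact h hx

end Words

section Solvable

variable {G : Type u} [Group G] {m n : ℕ}

theorem solvableOver_iff (w : Fin m → Coprod G (FreeGroup (Fin n))) :
    SolvableOver w ↔ ∀ g : G, Coprod.inl g ∈ Subgroup.normalClosure (Set.range w) → g = 1 := by
  constructor
  · intro h g hg
    apply h
    change (QuotientGroup.mk (Coprod.inl g) : _ ⧸ Subgroup.normalClosure (Set.range w))
      = QuotientGroup.mk (Coprod.inl 1)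
    rw [map_one]
    exact (QuotientGroup.eq_one_iff _).2 hg
  · intro h a b hab
    have h1 := QuotientGroup.eq.mp hab
    have h2 : (Coprod.inl (a⁻¹ * b) : Coprod G (FreeGroup (Fin n)))
        ∈ Subgroup.normalClosure (Set.range w) := by
      rw [map_mul, map_inv]
      exact h1
    have h3 := h _ h2
    exact (inv_mul_eq_one.mp h3)

theorem rows_independent_of_rank {K : Type*} [Field K] (M : Matrix (Fin m) (Fin n) K)
    (h : M.rank = m) : LinearIndependent K M.row := by
  rw [linearIndependent_iff_card_eq_finrank_span]
  rw [Set.finrank, ← Matrix.rank_eq_finrank_span_row, h]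
  simp

end Solvable

section Main

variable {G : Type u} [Group G] {p : ℕ} [hp : Fact p.Prime]

/-- The exponent homomorphism with values in finitely supported functions. -/
noncomputable def expY {Y : Type u} (G : Type u) [Group G] (p : ℕ) [Fact p.Prime] :
    Coprod G (FreeGroup Y) →* Multiplicative (Y →₀ ZMod p) :=
  Coprod.lift 1 (FreeGroup.lift fun y => Multiplicative.ofAdd (Finsupp.single y 1))

theorem expY_evalT {Y : Type u} (u : List (Letter G Y)) :
    expY G p (evalT u) = Multiplicative.ofAdd (row (ZMod p) u) := by
  induction u with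
  | nil => simp [evalT]
  | cons σ u ih =>
    have e : evalT (σ :: u) = lval inT varT σ * evalT u := by simp [evalT]
    rw [e, map_mul, ih, row_cons, ofAdd_add]
    congr 1
    rcases σ with g | ⟨y, b⟩
    · simp [lval, inT, expY, rowL]
    · cases b <;> simp [lval, varT, expY, rowL]

theorem expY_entry {n : ℕ} (t : Coprod G (FreeGroup (Fin n))) (j : Fin n) :
    Multiplicative.toAdd (expY (Y := ULift.{u} (Fin n)) G p
        (Coprod.map (MonoidHom.id G) (FreeGroup.map ULift.up) t)) (ULift.up j)
      = ((Multiplicative.toAdd (exponentSum G n t) j : ℤ) : ZMod p) := by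
  let φ1 : Coprod G (FreeGroup (Fin n)) →* Multiplicative (ZMod p) :=
    (AddMonoidHom.toMultiplicative (Finsupp.applyAddHom (ULift.up j))).comp
      ((expY (Y := ULift.{u} (Fin n)) G p).comp
        (Coprod.map (MonoidHom.id G) (FreeGroup.map ULift.up)))
  let φ2 : Coprod G (FreeGroup (Fin n)) →* Multiplicative (ZMod p) :=
    (AddMonoidHom.toMultiplicative
      ((Int.castAddHom (ZMod p)).comp (Pi.evalAddMonoidHom _ j))).comp (exponentSum G n)
  have hφ : φ1 = φ2 := by
    apply Coprod.hom_ext
    · ext g
      simp [φ1, φ2, expY, exponentSum]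
    · ext y
      by_cases hy : y = j
      · subst hy
        simp [φ1, φ2, expY, exponentSum]
      · have hy' : j ≠ y := fun e => hy e.symm
        simp [φ1, φ2, expY, exponentSum, hy']
  have := congrArg Multiplicative.toAdd (DFunLike.congr_fun hφ t)
  exact this

/-- The reduction modulo `p` to finitely generated subgroups without maps onto `ℤ/p`. -/
theorem howieMod_of_top
    (hTop : ∀ S : Subgroup G, S.FG → (∀ χ : S →* Multiplicative (ZMod p), χ = 1) →
      HowiePropertyMod p S) : HowiePropertyMod p G := by
  intro m n w hw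
  rw [solvableOver_iff]
  intro g hg
  classical
  let Y := ULift.{u} (Fin n)
  let I := ULift.{u} (Fin m)
  let ν : Coprod G (FreeGroup (Fin n)) →* Coprod G (FreeGroup Y) :=
    Coprod.map (MonoidHom.id G) (FreeGroup.map ULift.up)
  choose r hr using fun i : I => exists_word (ν (w i.down))
  let M := (exponentMatrix w).map (Int.cast : ℤ → ZMod p)
  have hMli : LinearIndependent (ZMod p) M.row := rows_independent_of_rank M hw
  let back : (Y →₀ ZMod p) →ₗ[ZMod p] (Fin n → ZMod p) :=
    LinearMap.pi fun j => Finsupp.lapply (ULift.up j)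
  have hback : ∀ i : Fin m, back (row (ZMod p) (r (ULift.up i))) = M.row i := by
    intro i
    funext j
    have h4 : Multiplicative.toAdd (expY G p (ν (w i))) = row (ZMod p) (r (ULift.up i)) := by
      have e : ν (w i) = evalT (r (ULift.up i)) := (hr (ULift.up i)).symm
      rw [e, expY_evalT]
      rfl
    have h2 := expY_entry (p := p) (w i) j
    change (row (ZMod p) (r (ULift.up i))) (ULift.up j) = _
    rw [← h4]
    exact h2
  have hli0 : LinearIndependent (ZMod p) fun i : Fin m => row (ZMod p) (r (ULift.up i)) := by
    apply LinearIndependent.of_comp back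
    have : (back ∘ fun i : Fin m => row (ZMod p) (r (ULift.up i))) = M.row := by
      funext i
      exact hback i
    rw [this]
    exact hMli
  have hli : LinearIndependent (ZMod p) fun i : I => row (ZMod p) (r i) := by
    have := hli0.comp (ULift.down : I → Fin m) ULift.down_injective
    exact this
  have hmem : ν (Coprod.inl g) ∈ Subgroup.normalClosure (Set.range fun i => evalT (r i)) := by
    have hle : Subgroup.normalClosure (Set.range w)
        ≤ (Subgroup.normalClosure (Set.range fun i => evalT (r i))).comap ν := by
      apply Subgroup.normalClosure_le_normal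
      rintro _ ⟨i, rfl⟩
      have e : ν (w i) = evalT (r (ULift.up i)) := (hr (ULift.up i)).symm
      rw [SetLike.mem_coe, Subgroup.mem_comap, e]
      exact Subgroup.subset_normalClosure ⟨ULift.up i, rfl⟩
    exact hle hg
  obtain ⟨E, hE⟩ := exists_E r _ hmem
  have hγ : evalT [Letter.coef g] = ν (Coprod.inl g) := by
    simp [evalT, lval, inT, ν]
  have key := tower hTop (cnt [Letter.coef (Y := Y) g]
      + (E.map fun e => cnt e.1 + cnt (r e.2.1)).sum + 1) Y I r hli E [Letter.coef g]
    (by
      intro σ hσ
      exact ⟨g, List.mem_singleton.mp hσ⟩)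
    (Nat.lt_succ_self _) (by rw [hγ, hE])
  rw [hγ] at key
  have h5 : (Coprod.inl g : Coprod G (FreeGroup Y)) = Coprod.inl 1 := by
    rw [map_one]
    exact key
  exact Coprod.inl_injective h5

end Main

end Vale.Agent.Lib.P174
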