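import Vale.Agent.Lib.P174.Main

/-!
Rational nonsingularity versus nonsingularity modulo a prime, and the consequences.
-/

namespace Vale.Agent.Lib.P174

open Monoid

universe u

section Matrices

variable {m n : ℕ}

theorem exists_right_inverse {K : Type*} [Field K] (M : Matrix (Fin m) (Fin n) K)
    (h : M.rank = m) : ∃ B : Matrix (Fin n) (Fin m) K, M * B = 1 := by
  classical
  have hs : Function.Surjective M.mulVecLin := by
    rw [← LinearMap.range_eq_top]
    apply Submodule.eq_top_of_finrank_eq
    have h1 : Module.finrank K (LinearMap.range M.mulVecLin) = m := h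
    rw [h1]
    simp
  choose b hb using fun i : Fin m => hs (Pi.single i 1)
  refine ⟨Matrix.of fun j i => b i j, ?_⟩
  ext i i'
  have h1 := congrFun (hb i') i
  simp only [Matrix.mulVecLin_apply, Matrix.mulVec, dotProduct] at h1
  simp only [Matrix.mul_apply, Matrix.of_apply]
  rw [h1, Matrix.one_apply, Pi.single_apply]

theorem rank_of_mul_isUnit {K : Type*} [Field K] (M : Matrix (Fin m) (Fin n) K)
    (B : Matrix (Fin n) (Fin m) K) (h : IsUnit (M * B)) : M.rank = m := by
  apply le_antisymm
  · simpa using M.rank_le_card_height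
  · have h1 := Matrix.rank_of_isUnit (M * B) h
    have h2 := Matrix.rank_mul_le_left M B
    simp only [Fintype.card_fin] at h1
    omega

/-- Rank `m` modulo a prime implies rank `m` over the rationals. -/
theorem rank_rat_of_rank_mod (p : ℕ) [Fact p.Prime] (A : Matrix (Fin m) (Fin n) ℤ)
    (h : (A.map (Int.cast : ℤ → ZMod p)).rank = m) :
    (A.map (Int.cast : ℤ → ℚ)).rank = m := by
  classical
  obtain ⟨B, hB⟩ := exists_right_inverse _ h
  let B' : Matrix (Fin n) (Fin m) ℤ := Matrix.of fun j i => ((B j i).val : ℤ)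
  have hB' : B'.map (Int.cast : ℤ → ZMod p) = B := by
    ext j i
    simp [B', Matrix.map_apply, Matrix.of_apply]
  have h1 : (A * B').map (Int.cast : ℤ → ZMod p) = 1 := by
    have : (A * B').map (Int.cast : ℤ → ZMod p)
        = A.map (Int.cast : ℤ → ZMod p) * B'.map (Int.cast : ℤ → ZMod p) :=
      Matrix.map_mul (f := Int.castRingHom (ZMod p))
    rw [this, hB', hB]
  have h2 : ((A * B').det : ZMod p) = 1 := by
    rw [Int.cast_det, h1, Matrix.det_one]
  have h3 : (A * B').det ≠ 0 := by
    intro h0
    rw [h0, Int.cast_zero] at h2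
    exact zero_ne_one h2
  apply rank_of_mul_isUnit _ (B'.map (Int.cast : ℤ → ℚ))
  have h4 : A.map (Int.cast : ℤ → ℚ) * B'.map (Int.cast : ℤ → ℚ)
      = (A * B').map (Int.cast : ℤ → ℚ) :=
    (Matrix.map_mul (f := Int.castRingHom ℚ)).symm
  rw [h4, Matrix.isUnit_iff_isUnit_det, ← Int.cast_det]
  exact isUnit_iff_ne_zero.mpr (by exact_mod_cast h3)

/-- An integer matrix of rank `m` over the rationals has an integer right inverse up to a scalar. -/
theorem exists_int_right_inverse (A : Matrix (Fin m) (Fin n) ℤ)
    (h : (A.map (Int.cast : ℤ → ℚ)).rank = m) :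
    ∃ (B : Matrix (Fin n) (Fin m) ℤ) (D : ℤ), D ≠ 0 ∧ A * B = D • (1 : Matrix (Fin m) (Fin m) ℤ) := by
  classical
  obtain ⟨B, hB⟩ := exists_right_inverse _ h
  let s : Finset ℚ := Finset.univ.image fun q : Fin n × Fin m => B q.1 q.2
  obtain ⟨b, hb⟩ := IsLocalization.exist_integer_multiples_of_finset (nonZeroDivisors ℤ) s
  have hb' : ∀ j i, ∃ z : ℤ, algebraMap ℤ ℚ z = (b : ℤ) • B j i := by
    intro j i
    exact hb _ (Finset.mem_image_of_mem _ (Finset.mem_univ (j, i)))
  choose B0 hB0 using hb'
  let B' : Matrix (Fin n) (Fin m) ℤ := Matrix.of B0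
  have hne : ((b : ℤ)) ≠ 0 := nonZeroDivisors.ne_zero b.2
  refine ⟨B', b, hne, ?_⟩
  apply Matrix.map_injective (f := (Int.cast : ℤ → ℚ)) Int.cast_injective
  have e1 : (A * B').map (Int.cast : ℤ → ℚ)
      = A.map (Int.cast : ℤ → ℚ) * B'.map (Int.cast : ℤ → ℚ) :=
    Matrix.map_mul (f := Int.castRingHom ℚ)
  have e2 : B'.map (Int.cast : ℤ → ℚ) = ((b : ℤ) : ℚ) • B := by
    ext j i
    have := hB0 j i
    simp only [algebraMap_int_eq, eq_intCast] at this
    simpa [B', Matrix.map_apply, Matrix.of_apply, zsmul_eq_mul] using this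
  beta_reduce
  rw [e1, e2, Matrix.mul_smul, hB]
  ext i j
  simp only [Matrix.map_apply, Matrix.smul_apply, Matrix.one_apply]
  split_ifs <;> simp

/-- A system nonsingular over `ℚ` is nonsingular modulo all large primes. -/
theorem exists_prime_rank_mod (A : Matrix (Fin m) (Fin n) ℤ)
    (h : (A.map (Int.cast : ℤ → ℚ)).rank = m) :
    ∃ p : ℕ, ∃ _ : Fact p.Prime, (A.map (Int.cast : ℤ → ZMod p)).rank = m := by
  classical
  obtain ⟨B, D, hD, hAB⟩ := exists_int_right_inverse A h
  obtain ⟨p, hpge, hpp⟩ := Nat.exists_infinite_primes (D.natAbs + 1)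
  have hF : Fact p.Prime := ⟨hpp⟩
  refine ⟨p, hF, ?_⟩
  have hD' : (D : ZMod p) ≠ 0 := by
    intro h0
    rw [ZMod.intCast_zmod_eq_zero_iff_dvd] at h0
    have := Nat.le_of_dvd (Int.natAbs_pos.mpr hD) (Int.natCast_dvd.mp h0)
    omega
  apply rank_of_mul_isUnit _ (B.map (Int.cast : ℤ → ZMod p))
  have e1 : A.map (Int.cast : ℤ → ZMod p) * B.map (Int.cast : ℤ → ZMod p)
      = (A * B).map (Int.cast : ℤ → ZMod p) :=
    (Matrix.map_mul (f := Int.castRingHom (ZMod p))).symm
  rw [e1, hAB, Matrix.isUnit_iff_isUnit_det]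
  have e2 : (D • (1 : Matrix (Fin m) (Fin m) ℤ)).map (Int.cast : ℤ → ZMod p)
      = (D : ZMod p) • (1 : Matrix (Fin m) (Fin m) (ZMod p)) := by
    ext i j
    simp only [Matrix.map_apply, Matrix.smul_apply, Matrix.one_apply]
    split_ifs <;> simp
  rw [e2, Matrix.det_smul, Matrix.det_one, mul_one]
  exact isUnit_iff_ne_zero.mpr (pow_ne_zero _ hD')

end Matrices

section Homs

variable {S : Type*} [Group S]

/-- A nontrivial homomorphism to `ℤ` gives a nontrivial homomorphism to `ℤ/p`. -/
theorem exists_hom_mod (p : ℕ) [hp : Fact p.Prime] (χ : S →* Multiplicative ℤ) (hχ : χ ≠ 1) :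
    ∃ χ' : S →* Multiplicative (ZMod p), χ' ≠ 1 := by
  classical
  let H : AddSubgroup ℤ :=
    { carrier := {n | ∃ s, Multiplicative.toAdd (χ s) = n}
      add_mem' := by
        rintro _ _ ⟨a, rfl⟩ ⟨b, rfl⟩
        exact ⟨a * b, by simp⟩
      zero_mem' := ⟨1, by simp⟩
      neg_mem' := by
        rintro _ ⟨a, rfl⟩
        exact ⟨a⁻¹, by simp⟩ }
  obtain ⟨a, ha⟩ := Int.subgroup_cyclic H
  have ha0 : a ≠ 0 := by
    rintro rfl
    apply hχ
    ext s
    have : Multiplicative.toAdd (χ s) ∈ H := ⟨s, rfl⟩
    rw [ha, AddSubgroup.mem_closure_singleton] at this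
    obtain ⟨q, hq⟩ := this
    apply Multiplicative.toAdd.injective
    rw [← hq]
    simp
  have hmem : ∀ s, ∃ q : ℤ, q * a = Multiplicative.toAdd (χ s) := by
    intro s
    have : Multiplicative.toAdd (χ s) ∈ H := ⟨s, rfl⟩
    rw [ha, AddSubgroup.mem_closure_singleton] at this
    obtain ⟨q, hq⟩ := this
    exact ⟨q, by simpa using hq⟩
  choose q hq using hmem
  have hqm : ∀ s t, q (s * t) = q s + q t := by
    intro s t
    apply mul_right_cancel₀ ha0
    rw [hq, add_mul, hq, hq, map_mul, toAdd_mul]
  have haH : a ∈ H := by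
    rw [ha]
    exact AddSubgroup.mem_closure_singleton_self a
  obtain ⟨s0, hs0⟩ := haH
  have hq0 : q s0 = 1 := by
    apply mul_right_cancel₀ ha0
    rw [hq, hs0, one_mul]
  refine ⟨MonoidHom.mk' (fun s => Multiplicative.ofAdd ((q s : ℤ) : ZMod p)) ?_, ?_⟩
  · intro s t
    rw [hqm]
    simp
  · intro h1
    have h2 := DFunLike.congr_fun h1 s0
    simp only [MonoidHom.mk'_apply, MonoidHom.one_apply, hq0, Int.cast_one] at h2
    exact one_ne_zero (α := ZMod p) (Multiplicative.ofAdd.injective h2)

end Homs

section Transfer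

variable {H K : Type u} [Group H] [Group K]

theorem exponentSum_map (φ : H →* K) (n : ℕ) (t : Coprod H (FreeGroup (Fin n))) :
    exponentSum K n (Coprod.map φ (MonoidHom.id _) t) = exponentSum H n t := by
  have : (exponentSum K n).comp (Coprod.map φ (MonoidHom.id _)) = exponentSum H n := by
    apply Coprod.hom_ext
    · ext x
      simp [exponentSum]
    · ext y
      simp [exponentSum]
  exact DFunLike.congr_fun this t

theorem exponentMatrix_map (φ : H →* K) {m n : ℕ} (w : Fin m → Coprod H (FreeGroup (Fin n))) :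
    exponentMatrix (fun i => Coprod.map φ (MonoidHom.id _) (w i)) = exponentMatrix w := by
  funext i j
  simp only [exponentMatrix, exponentSum_map]

theorem solvable_of_map (φ : H →* K) (hφ : Function.Injective φ) {m n : ℕ}
    (w : Fin m → Coprod H (FreeGroup (Fin n)))
    (h : SolvableOver (fun i => Coprod.map φ (MonoidHom.id _) (w i))) : SolvableOver w := by
  rw [solvableOver_iff] at h ⊢
  intro g hg
  have hle : Subgroup.normalClosure (Set.range w)
      ≤ (Subgroup.normalClosure (Set.range fun i => Coprod.map φ (MonoidHom.id _) (w i))).comap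
        (Coprod.map φ (MonoidHom.id (FreeGroup (Fin n)))) := by
    apply Subgroup.normalClosure_le_normal
    rintro _ ⟨i, rfl⟩
    rw [SetLike.mem_coe, Subgroup.mem_comap]
    exact Subgroup.subset_normalClosure ⟨i, rfl⟩
  have h1 := hle hg
  rw [Subgroup.mem_comap] at h1
  have h2 : φ g = 1 := h (φ g) h1
  exact hφ (by rw [h2, map_one])

/-- Howie's property passes to subgroups, and more generally along embeddings. -/
theorem howie_of_injective (φ : H →* K) (hφ : Function.Injective φ) (h : HowieProperty K) :
    HowieProperty H := by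
  intro m n w hw
  apply solvable_of_map φ hφ
  apply h
  unfold Nonsingular at hw ⊢
  rw [exponentMatrix_map]
  exact hw

theorem howieMod_of_injective (p : ℕ) [Fact p.Prime] (φ : H →* K) (hφ : Function.Injective φ)
    (h : HowiePropertyMod p K) : HowiePropertyMod p H := by
  intro m n w hw
  apply solvable_of_map φ hφ
  apply h
  unfold NonsingularMod at hw ⊢
  rw [exponentMatrix_map]
  exact hw

end Transfer

section Reductions

variable {G : Type u} [Group G]

/-- The reduction of Howie's conjecture for `G` to finitely generated subgroups of `G` with no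
homomorphism onto `ℤ`. -/
theorem howie_of_top
    (hTop : ∀ S : Subgroup G, S.FG → (∀ χ : S →* Multiplicative ℤ, χ = 1) → HowieProperty S) :
    HowieProperty G := by
  intro m n w hw
  obtain ⟨p, hF, hwp⟩ := exists_prime_rank_mod (exponentMatrix w) hw
  refine howieMod_of_top (p := p) ?_ m n w hwp
  intro S hSfg hfree m' n' w' hw'
  apply hTop S hSfg
  · intro χ
    by_contra hχ
    obtain ⟨χ', hχ'⟩ := exists_hom_mod p χ hχ
    exact hχ' (hfree χ')
  · exact rank_rat_of_rank_mod p _ hw'

/-- The closure theorem: an extension of a group with Howie's property by a locally indicable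
quotient has Howie's property. -/
theorem howie_extension (N : Subgroup G) [N.Normal] (hQ : LocallyIndicable (G ⧸ N))
    (hN : HowieProperty N) : HowieProperty G := by
  apply howie_of_top
  intro S hSfg hfree
  have hle : S ≤ N := by
    let π : S →* G ⧸ N := (QuotientGroup.mk' N).comp S.subtype
    by_contra hne
    have hrange : π.range ≠ ⊥ := by
      intro hbot
      apply hne
      intro x hx
      have : π ⟨x, hx⟩ = 1 := by
        have h1 : π ⟨x, hx⟩ ∈ π.range := ⟨_, rfl⟩
        rw [hbot] at h1
        exact h1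
      exact (QuotientGroup.eq_one_iff x).mp this
    have hfg : π.range.FG := by
      have : Group.FG S := (Group.fg_iff_subgroup_fg S).mpr hSfg
      exact (Group.fg_iff_subgroup_fg _).mp (Group.fg_range π)
    obtain ⟨f, hf⟩ := hQ π.range hfg hrange
    have h1 := hfree (f.comp π.rangeRestrict)
    have h2 : f = 1 := by
      ext y
      obtain ⟨x, hx⟩ := π.rangeRestrict_surjective y
      have := DFunLike.congr_fun h1 x
      simp only [MonoidHom.comp_apply, MonoidHom.one_apply] at this
      rw [← hx, this]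
      rfl
    rw [h2] at hf
    obtain ⟨y, hy⟩ := hf (Multiplicative.ofAdd 1)
    simp only [MonoidHom.one_apply] at hy
    exact one_ne_zero (α := ℤ) (Multiplicative.ofAdd.injective hy).symm
  exact howie_of_injective (Subgroup.inclusion hle) (Subgroup.inclusion_injective hle) hN

/-- The closure theorem modulo `p`. -/
theorem howieMod_extension (p : ℕ) [hp : Fact p.Prime] (N : Subgroup G) [N.Normal]
    (hQ : LocallyPIndicable p (G ⧸ N)) (hN : HowiePropertyMod p N) : HowiePropertyMod p G := by
  apply howieMod_of_top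
  intro S hSfg hfree
  have hle : S ≤ N := by
    let π : S →* G ⧸ N := (QuotientGroup.mk' N).comp S.subtype
    by_contra hne
    have hrange : π.range ≠ ⊥ := by
      intro hbot
      apply hne
      intro x hx
      have : π ⟨x, hx⟩ = 1 := by
        have h1 : π ⟨x, hx⟩ ∈ π.range := ⟨_, rfl⟩
        rw [hbot] at h1
        exact h1
      exact (QuotientGroup.eq_one_iff x).mp this
    have hfg : π.range.FG := by
      have : Group.FG S := (Group.fg_iff_subgroup_fg S).mpr hSfg
      exact (Group.fg_iff_subgroup_fg _).mp (Group.fg_range π)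
    obtain ⟨f, hf⟩ := hQ π.range hfg hrange
    have h1 := hfree (f.comp π.rangeRestrict)
    have h2 : f = 1 := by
      ext y
      obtain ⟨x, hx⟩ := π.rangeRestrict_surjective y
      have := DFunLike.congr_fun h1 x
      simp only [MonoidHom.comp_apply, MonoidHom.one_apply] at this
      rw [← hx, this]
      rfl
    rw [h2] at hf
    obtain ⟨y, hy⟩ := hf (Multiplicative.ofAdd 1)
    simp only [MonoidHom.one_apply] at hy
    exact one_ne_zero (α := ZMod p) (Multiplicative.ofAdd.injective hy).symm
  exact howieMod_of_injective p (Subgroup.inclusion hle) (Subgroup.inclusion_injective hle) hN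

end Reductions

end Vale.Agent.Lib.P174
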