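import Vale.Agent.Lib.P174.Cover

/-!
Exponent rows of words, the group algebra of `ℤ/p` over `𝔽_p`, and linear independence of the rows
of rewritten relators.
-/

namespace Vale.Agent.Lib.P174

open Monoid

universe u

section Dual

theorem exists_dual {K M J : Type*} [Field K] [AddCommGroup M] [Module K M] [DecidableEq J]
    {v : J → M} (hv : LinearIndependent K v) (j : J) :
    ∃ f : M →ₗ[K] K, ∀ i, f (v i) = if i = j then 1 else 0 := by
  let b := Module.Basis.span hv
  obtain ⟨g, hg⟩ := LinearMap.exists_extend (b.coord j)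
  refine ⟨g, fun i => ?_⟩
  have hi : v i ∈ Submodule.span K (Set.range v) := Submodule.subset_span ⟨i, rfl⟩
  have h1 : g (v i) = (b.coord j) ⟨v i, hi⟩ := by
    have := congrArg (fun φ => φ ⟨v i, hi⟩) hg
    simpa using this
  have h2 : (⟨v i, hi⟩ : Submodule.span K (Set.range v)) = b i := by
    ext
    simp [b, Module.Basis.span_apply]
  rw [h1, h2]
  simp [Module.Basis.coord_apply, Finsupp.single_apply]

end Dual

section Row

variable {G Y : Type u} (F : Type) [Field F]

/-- Exponent row of a letter. -/
noncomputable def rowL : Letter G Y → (Y →₀ F)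
  | .coef _ => 0
  | .var y true => Finsupp.single y 1
  | .var y false => -Finsupp.single y 1

/-- Exponent row of a word. -/
noncomputable def row (w : List (Letter G Y)) : Y →₀ F := (w.map (rowL F)).sum

@[simp] theorem row_nil : row F ([] : List (Letter G Y)) = 0 := rfl

@[simp] theorem row_cons (σ : Letter G Y) (w : List (Letter G Y)) :
    row F (σ :: w) = rowL F σ + row F w := by
  simp [row]

@[simp] theorem row_append (v w : List (Letter G Y)) :
    row F (v ++ w) = row F v + row F w := by
  simp [row]

end Row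

section Lam

variable (p : ℕ) [hp : Fact p.Prime]

/-- The group algebra of `ℤ/p` over `𝔽_p`. -/
abbrev Lam : Type := MonoidAlgebra (ZMod p) (Multiplicative (ZMod p))

/-- The augmentation. -/
noncomputable def aug : Lam p →ₐ[ZMod p] ZMod p :=
  MonoidAlgebra.lift (ZMod p) (ZMod p) (Multiplicative (ZMod p)) 1

@[simp] theorem aug_single (g : Multiplicative (ZMod p)) (c : ZMod p) :
    aug p (MonoidAlgebra.single g c) = c := by
  simp [aug, MonoidAlgebra.lift_single]

instance : CharP (Lam p) p :=
  charP_of_injective_algebraMap (R := ZMod p) (algebraMap (ZMod p) (Lam p)).injective p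

/-- Frobenius on the group algebra of `ℤ/p`. -/
theorem pow_p_eq (a : Lam p) : a ^ p = algebraMap (ZMod p) (Lam p) (aug p a) := by
  induction a using MonoidAlgebra.induction_on with
  | of g =>
    have hg : g ^ p = 1 := by
      apply Multiplicative.toAdd.injective
      simp
    have h1 : (MonoidAlgebra.of (ZMod p) (Multiplicative (ZMod p)) g) ^ p = 1 := by
      rw [← map_pow, hg, map_one]
    rw [h1]
    simp [MonoidAlgebra.of_apply, MonoidAlgebra.one_def]
  | add a b ha hb =>
    rw [add_pow_char, ha, hb, map_add, map_add]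
  | smul c a ha =>
    have hc : c ^ p = c := ZMod.pow_card c
    rw [smul_pow, ha, hc, map_smul, Algebra.smul_def, smul_eq_mul, map_mul]

theorem isUnit_of_aug_eq_one (a : Lam p) (h : aug p a = 1) : IsUnit a := by
  have h1 : a ^ p = 1 := by rw [pow_p_eq, h, map_one]
  have hp0 : p ≠ 0 := hp.out.ne_zero
  exact IsUnit.of_pow_eq_one h1 hp0


variable {G Y : Type u} {p}

/-- The functional `f` read in the group algebra, on a letter. -/
noncomputable def foxL (f : (Y →₀ ZMod p) →ₗ[ZMod p] ZMod p) (hx : Y → Multiplicative (ZMod p)) :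
    Letter G Y → Lam p
  | .coef _ => 0
  | .var y true => MonoidAlgebra.single 1 (f (Finsupp.single y 1))
  | .var y false => -MonoidAlgebra.single (hx y)⁻¹ (f (Finsupp.single y 1))

/-- The functional `f` read in the group algebra, on a word (a Fox derivative). -/
noncomputable def foxW (f : (Y →₀ ZMod p) →ₗ[ZMod p] ZMod p) (hf : G → Multiplicative (ZMod p))
    (hx : Y → Multiplicative (ZMod p)) : List (Letter G Y) → Lam p
  | [] => 0
  | σ :: w => foxL f hx σ + MonoidAlgebra.single (lval hf hx σ) 1 * foxW f hf hx w

theorem aug_foxW (f : (Y →₀ ZMod p) →ₗ[ZMod p] ZMod p) (hf : G → Multiplicative (ZMod p))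
    (hx : Y → Multiplicative (ZMod p)) (w : List (Letter G Y)) :
    aug p (foxW f hf hx w) = f (row (ZMod p) w) := by
  induction w with
  | nil => simp [foxW]
  | cons σ w ih =>
    simp only [foxW, map_add, map_mul, aug_single, one_mul, ih, row_cons]
    congr 1
    rcases σ with g | ⟨y, b⟩
    · simp [foxL, rowL]
    · cases b <;> simp [foxL, rowL]

/-- The functional read on the rows of rewritten words. -/
noncomputable def hatf (f : (Y →₀ ZMod p) →ₗ[ZMod p] ZMod p) :
    (Y × Multiplicative (ZMod p) →₀ ZMod p) →ₗ[ZMod p] Lam p :=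
  Finsupp.linearCombination (ZMod p)
    (fun q : Y × Multiplicative (ZMod p) => MonoidAlgebra.single q.2 (f (Finsupp.single q.1 1)))

theorem hatf_single (f : (Y →₀ ZMod p) →ₗ[ZMod p] ZMod p) (q : Y × Multiplicative (ZMod p)) :
    hatf f (Finsupp.single q 1) = MonoidAlgebra.single q.2 (f (Finsupp.single q.1 1)) := by
  simp [hatf]

variable [Group G]

theorem hatf_liftL (f : (Y →₀ ZMod p) →ₗ[ZMod p] ZMod p) (sec : Multiplicative (ZMod p) → G)
    (hf : G → Multiplicative (ZMod p)) (hx : Y → Multiplicative (ZMod p)) (σ : Letter G Y)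
    (h : Multiplicative (ZMod p)) :
    hatf f (row (ZMod p) (liftL sec hf hx σ h))
      = MonoidAlgebra.single h 1 * foxL f hx σ := by
  rcases σ with g | ⟨y, b⟩
  · simp only [liftL]
    split_ifs <;> simp [rowL, foxL]
  · cases b
    · simp [liftL, rowL, foxL, hatf_single, MonoidAlgebra.single_mul_single]
    · simp [liftL, rowL, foxL, hatf_single, MonoidAlgebra.single_mul_single]

theorem hatf_liftW (f : (Y →₀ ZMod p) →ₗ[ZMod p] ZMod p) (sec : Multiplicative (ZMod p) → G)
    (hf : G → Multiplicative (ZMod p)) (hx : Y → Multiplicative (ZMod p)) (w : List (Letter G Y))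
    (h : Multiplicative (ZMod p)) :
    hatf f (row (ZMod p) (liftW sec hf hx w h))
      = MonoidAlgebra.single h 1 * foxW f hf hx w := by
  induction w generalizing h with
  | nil => simp [foxW]
  | cons σ w ih =>
    simp only [liftW_cons, row_append, map_add, hatf_liftL, ih, foxW, mul_add]
    congr 1
    rw [← mul_assoc, MonoidAlgebra.single_mul_single, one_mul]

/-- Rows of rewritten relators stay independent. -/
theorem rows_lift_independent {I : Type u} (sec : Multiplicative (ZMod p) → G)
    (hf : G → Multiplicative (ZMod p)) (hx : Y → Multiplicative (ZMod p))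
    (r : I → List (Letter G Y))
    (hr : LinearIndependent (ZMod p) fun i => row (ZMod p) (r i)) :
    LinearIndependent (ZMod p)
      fun q : I × Multiplicative (ZMod p) => row (ZMod p) (liftW sec hf hx (r q.1) q.2) := by
  classical
  rw [linearIndependent_iff']
  intro t c hc q hq
  -- dual functionals
  choose f hf' using fun j => exists_dual hr j
  let s : Finset I := t.image Prod.fst
  let c' : I → Multiplicative (ZMod p) → ZMod p := fun i h => if (i, h) ∈ t then c (i, h) else 0
  let C : s → Lam p := fun i => ∑ h, MonoidAlgebra.single h (c' i.1 h)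
  let M : Matrix s s (Lam p) := fun i j => foxW (f j.1) hf hx (r i.1)
  let R : I → Multiplicative (ZMod p) → (Y × Multiplicative (ZMod p) →₀ ZMod p) :=
    fun i h => row (ZMod p) (liftW sec hf hx (r i) h)
  have hsum : ∑ i : s, ∑ h, c' i.1 h • R i.1 h = 0 := by
    have e1 : ∑ i : s, ∑ h, c' i.1 h • R i.1 h = ∑ i ∈ s, ∑ h, c' i h • R i h :=
      Finset.sum_coe_sort s (fun i => ∑ h, c' i h • R i h)
    have e2 : ∑ i ∈ s, ∑ h, c' i h • R i h
        = ∑ q ∈ s ×ˢ (Finset.univ : Finset (Multiplicative (ZMod p))), c' q.1 q.2 • R q.1 q.2 :=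
      (Finset.sum_product s Finset.univ (fun q => c' q.1 q.2 • R q.1 q.2)).symm
    have hsub : t ⊆ s ×ˢ (Finset.univ : Finset (Multiplicative (ZMod p))) := by
      intro x hx'
      simp only [Finset.mem_product, Finset.mem_univ, and_true]
      exact Finset.mem_image_of_mem _ hx'
    have e3 : ∑ q ∈ t, c' q.1 q.2 • R q.1 q.2
        = ∑ q ∈ s ×ˢ (Finset.univ : Finset (Multiplicative (ZMod p))), c' q.1 q.2 • R q.1 q.2 :=
      Finset.sum_subset hsub (fun x _ hx2 => by
        have : c' x.1 x.2 = 0 := by
          simp only [c', Prod.mk.eta, hx2, if_false]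
        rw [this, zero_smul])
    have e4 : ∑ q ∈ t, c' q.1 q.2 • R q.1 q.2 = ∑ q ∈ t, c q • R q.1 q.2 :=
      Finset.sum_congr rfl (fun x hx' => by
        have : c' x.1 x.2 = c x := by
          simp only [c', Prod.mk.eta, hx', if_true]
        rw [this])
    rw [e1, e2, ← e3, e4]
    exact hc
  have hM : Matrix.vecMul C M = 0 := by
    funext j
    have h0 := congrArg (hatf (f j.1)) hsum
    simp only [map_sum, map_smul, map_zero] at h0
    have h1 : ∀ (i : s) (h : Multiplicative (ZMod p)),
        c' i.1 h • hatf (f j.1) (R i.1 h)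
          = MonoidAlgebra.single h (c' i.1 h) * M i j := by
      intro i h
      simp only [R, hatf_liftW, M]
      rw [← smul_mul_assoc, MonoidAlgebra.smul_single]
      simp
    simp only [h1] at h0
    simp only [Matrix.vecMul, dotProduct, Pi.zero_apply, C, Finset.sum_mul]
    exact h0
  have hdet : IsUnit M.det := by
    apply isUnit_of_aug_eq_one
    have h1 : aug p M.det = ((aug p : Lam p →+* ZMod p).mapMatrix M).det :=
      RingHom.map_det (aug p : Lam p →+* ZMod p) M
    have h2 : (aug p : Lam p →+* ZMod p).mapMatrix M = 1 := by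
      ext i j
      have h3 : ((aug p : Lam p →+* ZMod p).mapMatrix M) i j = aug p (M i j) := rfl
      rw [h3]
      simp only [M]
      rw [aug_foxW, hf']
      by_cases hij : i = j
      · subst hij
        simp
      · have hij' : i.1 ≠ j.1 := fun e => hij (Subtype.ext e)
        simp [hij, hij']
    rw [h1, h2, Matrix.det_one]
  have hC : C = 0 := by
    have h1 : Matrix.vecMul (Matrix.vecMul C M) M⁻¹ = C := by
      rw [Matrix.vecMul_vecMul, Matrix.mul_nonsing_inv M hdet, Matrix.vecMul_one]
    rw [← h1, hM, Matrix.zero_vecMul]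
  -- extract the coefficient
  have hqs : q.1 ∈ s := Finset.mem_image_of_mem _ hq
  have h2 := congrFun hC ⟨q.1, hqs⟩
  have h3 := congrArg (fun a : Lam p => a.coeff q.2) h2
  simp only [C, MonoidAlgebra.coeff_sum, MonoidAlgebra.coeff_single, Finsupp.finsetSum_apply,
    Finsupp.single_apply, Finset.sum_ite_eq', Finset.mem_univ, if_true, Pi.zero_apply,
    MonoidAlgebra.coeff_zero, Finsupp.coe_zero] at h3
  simpa [c', hq] using h3

end Lam

end Vale.Agent.Lib.P174
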