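import Vale.Agent.Lib.P174.Rows
import Vale.Agent.Lib.P174.Defs

/-!
The induction on the number of coefficient letters.
-/

namespace Vale.Agent.Lib.P174

open Monoid

universe u

/-- Free products preserve embeddings in the first factor. -/
theorem coprodMap_injective {G : Type u} [Group G] (S : Subgroup G) (F : Type u) [Group F] :
    Function.Injective (Coprod.map S.subtype (MonoidHom.id F)) := by
  classical
  let Fam : Bool → Type u := fun b => cond b G (Coprod S F)
  let inst : ∀ b, Group (Fam b) := fun b => match b with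
    | true => (inferInstance : Group G)
    | false => (inferInstance : Group (Coprod S F))
  let φ : ∀ b, S →* Fam b := fun b => match b with
    | true => S.subtype
    | false => Coprod.inl
  have hφ : ∀ b, Function.Injective (φ b) := by
    intro b
    cases b
    · exact Coprod.inl_injective
    · exact S.subtype_injective
  have hof := PushoutI.of_injective (φ := φ) hφ false
  let Θ : Coprod G F →* PushoutI φ :=
    Coprod.lift (PushoutI.of (φ := φ) true)
      ((PushoutI.of (φ := φ) false).comp Coprod.inr)
  have hcomp : Θ.comp (Coprod.map S.subtype (MonoidHom.id F)) = PushoutI.of (φ := φ) false := by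
    apply Coprod.hom_ext
    · ext s
      have e1 := PushoutI.of_apply_eq_base φ true s
      have e2 := PushoutI.of_apply_eq_base φ false s
      exact e1.trans e2.symm
    · ext f
      simp [Θ]
  intro a b hab
  apply hof
  have := congrArg Θ hab
  simpa [← hcomp] using this

section Solve

variable {G Y : Type u} [Group G] {I : Type u} {p : ℕ} [hp : Fact p.Prime]

/-- Solving the linear system for the heights of the unknowns. -/
theorem exists_hx {S : Subgroup G} (χ : S →* Multiplicative (ZMod p)) (r : I → List (Letter G Y))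
    (hr : LinearIndependent (ZMod p) fun i => row (ZMod p) (r i)) (s : Finset I) :
    ∃ hx : Y → Multiplicative (ZMod p), ∀ i ∈ s, wval (hgt χ) hx (r i) = 1 := by
  classical
  choose f hf using fun j => exists_dual hr j
  let b : I → ZMod p := fun i => Multiplicative.toAdd (wval (hgt χ) (fun _ : Y => 1) (r i))
  let L : (Y →₀ ZMod p) →ₗ[ZMod p] ZMod p := -∑ i ∈ s, b i • f i
  let hx : Y → Multiplicative (ZMod p) := fun y => Multiplicative.ofAdd (L (Finsupp.single y 1))
  have key : ∀ w : List (Letter G Y),
      wval (hgt χ) hx w = wval (hgt χ) (fun _ : Y => 1) w * Multiplicative.ofAdd (L (row (ZMod p) w)) := by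
    intro w
    induction w with
    | nil => simp
    | cons σ w ih =>
      simp only [wval_cons, ih, row_cons, map_add, ofAdd_add]
      rcases σ with g | ⟨y, c⟩
      · simp [lval, rowL, mul_assoc]
      · cases c <;> simp [lval, rowL, hx, mul_comm, mul_left_comm, mul_assoc]
  refine ⟨hx, fun j hj => ?_⟩
  rw [key]
  have h1 : L (row (ZMod p) (r j)) = - b j := by
    simp only [L, LinearMap.neg_apply, LinearMap.sum_apply, LinearMap.smul_apply, hf, smul_eq_mul,
      mul_ite, mul_one, mul_zero]
    rw [Finset.sum_ite_eq]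
    simp [hj]
  rw [h1]
  simp only [ofAdd_neg, b, ofAdd_toAdd]
  simp

end Solve

section Top

variable {G Y : Type u} [Group G] {I : Type u} {p : ℕ} [hp : Fact p.Prime]

theorem exponent_entry {S : Subgroup G} {n : ℕ} (Y0 : Finset Y) (eY : Y0 ≃ Fin n)
    (ρ : Coprod S (FreeGroup Y) →* Coprod S (FreeGroup (Fin n)))
    (hρ1 : ∀ x : S, ρ (Coprod.inl x) = Coprod.inl x)
    (hρ2 : ∀ y (h : y ∈ Y0), ρ (varT y) = Coprod.inr (FreeGroup.of (eY ⟨y, h⟩)))
    (hρ3 : ∀ y, y ∉ Y0 → ρ (varT y) = 1)
    (u : List (Letter G Y)) (j : Fin n) :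
    (((Multiplicative.toAdd (exponentSum S n (ρ (wval (coefS S) varT u)))) j : ℤ) : ZMod p)
      = row (ZMod p) u (eY.symm j).1 := by
  classical
  have hcoef : ∀ g, exponentSum S n (ρ (coefS S g)) = 1 := by
    intro g
    by_cases h : g ∈ S
    · rw [coefS_of_mem S h, hρ1]
      simp [exponentSum]
    · simp [coefS, h]
  have hvar : ∀ y, (((Multiplicative.toAdd (exponentSum S n (ρ (varT y)))) j : ℤ) : ZMod p)
      = (Finsupp.single y (1 : ZMod p)) (eY.symm j).1 := by
    intro y
    by_cases h : y ∈ Y0
    · rw [hρ2 y h]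
      by_cases hj : eY ⟨y, h⟩ = j
      · subst hj
        simp [exponentSum]
      · have hne : y ≠ (eY.symm j).1 := by
          intro e
          apply hj
          have : (⟨y, h⟩ : Y0) = eY.symm j := Subtype.ext e
          rw [this]
          simp
        have hj' : j ≠ eY ⟨y, h⟩ := fun e => hj e.symm
        simp [exponentSum, hne, hj']
    · rw [hρ3 y h]
      have hne : y ≠ (eY.symm j).1 := fun e => h (e ▸ (eY.symm j).2)
      simp [hne]
  induction u with
  | nil => simp
  | cons σ u ih =>
    simp only [wval_cons, map_mul, toAdd_mul, Pi.add_apply, Int.cast_add, ih, row_cons,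
      Finsupp.add_apply]
    congr 1
    rcases σ with g | ⟨y, b⟩
    · simp [lval, rowL, hcoef]
    · cases b
      · simp only [lval, map_inv, toAdd_inv, Pi.neg_apply, Int.cast_neg, hvar, rowL,
          Finsupp.neg_apply]
      · simp only [lval, hvar, rowL]

theorem top_case {S : Subgroup G} (hS : HowiePropertyMod p S) (r : I → List (Letter G Y))
    (hr : LinearIndependent (ZMod p) fun i => row (ZMod p) (r i))
    (E : List (List (Letter G Y) × I × Bool)) (γ : List (Letter G Y))
    (hγc : ∀ σ ∈ γ, ∃ g, σ = Letter.coef g) (hγ : Valid S γ)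
    (hid : wval (coefS S) varT γ = evalE (coefS S) varT r E) :
    wval (coefS S) varT γ = 1 := by
  classical
  let s : Finset I := (E.map fun e => e.2.1).toFinset
  let Y0 : Finset Y := s.biUnion fun i => (row (ZMod p) (r i)).support
  let eI := s.equivFin
  let eY := Y0.equivFin
  let ρ0 : Y → FreeGroup (Fin Y0.card) := fun y =>
    if h : y ∈ Y0 then FreeGroup.of (eY ⟨y, h⟩) else 1
  let ρ : Coprod S (FreeGroup Y) →* Coprod S (FreeGroup (Fin Y0.card)) :=
    Coprod.map (MonoidHom.id S) (FreeGroup.lift ρ0)
  let v : Fin s.card → I := fun i => (eI.symm i).1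
  have hv : Function.Injective v := by
    intro a b hab
    exact eI.symm.injective (Subtype.ext hab)
  let w : Fin s.card → Coprod S (FreeGroup (Fin Y0.card)) :=
    fun i => ρ (wval (coefS S) varT (r (v i)))
  have hρ1 : ∀ x : S, ρ (Coprod.inl x) = Coprod.inl x := fun x => rfl
  have hρ2 : ∀ y (h : y ∈ Y0), ρ (varT y) = Coprod.inr (FreeGroup.of (eY ⟨y, h⟩)) := by
    intro y h
    simp [ρ, varT, ρ0, h]
  have hρ3 : ∀ y, y ∉ Y0 → ρ (varT y) = 1 := by
    intro y h
    simp [ρ, varT, ρ0, h]
  -- the matrix
  let M := (exponentMatrix w).map (Int.cast : ℤ → ZMod p)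
  have hMentry : ∀ i j, M i j = row (ZMod p) (r (v i)) (eY.symm j).1 := by
    intro i j
    exact exponent_entry Y0 eY ρ hρ1 hρ2 hρ3 (r (v i)) j
  let R : (Fin Y0.card → ZMod p) →ₗ[ZMod p] (Y →₀ ZMod p) :=
    (Finsupp.lmapDomain (ZMod p) (ZMod p) (fun j : Fin Y0.card => (eY.symm j).1)).comp
      (Finsupp.linearEquivFunOnFinite (ZMod p) (ZMod p) (Fin Y0.card)).symm.toLinearMap
  have hinj : Function.Injective (fun j : Fin Y0.card => (eY.symm j).1) := by
    intro a b hab
    exact eY.symm.injective (Subtype.ext hab)
  have hRrow : ∀ i, R (M.row i) = row (ZMod p) (r (v i)) := by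
    intro i
    ext y
    by_cases hy : y ∈ Y0
    · have hy' : y = (fun j : Fin Y0.card => (eY.symm j).1) (eY ⟨y, hy⟩) := by simp
      rw [hy']
      simp only [R, LinearMap.comp_apply, Finsupp.lmapDomain_apply]
      rw [Finsupp.mapDomain_apply hinj]
      simp only [LinearEquiv.coe_coe,
        Finsupp.equivFunOnFinite_symm_apply_apply]
      exact hMentry i _
    · have h0 : row (ZMod p) (r (v i)) y = 0 := by
        by_contra hne
        apply hy
        simp only [Y0, Finset.mem_biUnion]
        exact ⟨v i, (eI.symm i).2, Finsupp.mem_support_iff.mpr hne⟩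
      rw [h0]
      simp only [R, LinearMap.comp_apply, Finsupp.lmapDomain_apply]
      apply Finsupp.mapDomain_of_notMem_range
      rintro ⟨j, rfl⟩
      exact hy (eY.symm j).2
  have hMli : LinearIndependent (ZMod p) M.row := by
    apply LinearIndependent.of_comp R
    have : (R ∘ M.row) = (fun i => row (ZMod p) (r i)) ∘ v := by
      funext i
      exact hRrow i
    rw [this]
    exact hr.comp v hv
  have hrank : NonsingularMod p w := by
    have h := hMli.rank_matrix
    simp only [Fintype.card_fin] at h
    exact h
  have hsolv := hS s.card Y0.card w hrank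
  -- membership in the normal closure
  let N := Subgroup.normalClosure (Set.range w)
  have hblk : ∀ e ∈ E, ρ (blk (coefS S) varT r e) ∈ N := by
    intro e he
    have hs : e.2.1 ∈ s := by
      simp only [s, List.mem_toFinset, List.mem_map]
      exact ⟨e, he, rfl⟩
    have hwi : ρ (wval (coefS S) varT (r e.2.1)) ∈ N := by
      apply Subgroup.subset_normalClosure
      refine ⟨eI ⟨e.2.1, hs⟩, ?_⟩
      simp [w, v]
    have hsg : ρ (sgn e.2.2 (wval (coefS S) varT (r e.2.1))) ∈ N := by
      rw [map_sgn]
      cases e.2.2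
      · exact N.inv_mem hwi
      · exact hwi
    simp only [blk, map_mul, map_inv]
    exact (Subgroup.normalClosure_normal).conj_mem _ hsg _
  have hE : ρ (evalE (coefS S) varT r E) ∈ N := by
    have : ∀ E' : List (List (Letter G Y) × I × Bool), (∀ e ∈ E', e ∈ E) →
        ρ (evalE (coefS S) varT r E') ∈ N := by
      intro E' hE'
      induction E' with
      | nil => simp [N.one_mem]
      | cons e E' ih =>
        rw [evalE_cons, map_mul]
        exact N.mul_mem (hblk e (hE' e List.mem_cons_self))
          (ih (fun e' he' => hE' e' (List.mem_cons_of_mem _ he')))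
    exact this E (fun e he => he)
  -- the value of γ is in S
  have hγS : ∀ γ' : List (Letter G Y), (∀ σ ∈ γ', σ ∈ γ) →
      ∃ x : S, wval (coefS S) varT γ' = Coprod.inl x := by
    intro γ' hγ'
    induction γ' with
    | nil => exact ⟨1, by simp⟩
    | cons σ γ' ih =>
      obtain ⟨x, hx⟩ := ih (fun σ' h' => hγ' σ' (List.mem_cons_of_mem _ h'))
      obtain ⟨g, rfl⟩ := hγc σ (hγ' σ List.mem_cons_self)
      have hg : g ∈ S := hγ g (hγ' _ List.mem_cons_self)
      refine ⟨⟨g, hg⟩ * x, ?_⟩
      rw [wval_cons, hx, map_mul]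
      simp [lval, coefS_of_mem S hg]
  obtain ⟨x, hx⟩ := hγS γ (fun σ h => h)
  rw [hx] at hid ⊢
  have hmem : (Coprod.inl x : Coprod S (FreeGroup (Fin Y0.card))) ∈ N := by
    have : ρ (Coprod.inl x) = Coprod.inl x := rfl
    rw [← this, hid]
    exact hE
  have hx1 : x = 1 := by
    apply hsolv
    change (QuotientGroup.mk (Coprod.inl x) : _ ⧸ N) = QuotientGroup.mk (Coprod.inl 1)
    rw [map_one]
    exact (QuotientGroup.eq_one_iff _).2 hmem
  rw [hx1, map_one]

end Top

section Tower

variable {G : Type u} [Group G] {p : ℕ} [hp : Fact p.Prime]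

theorem xi_wval (S : Subgroup G) {Y : Type u} (w : List (Letter G Y)) (hw : Valid S w) :
    Coprod.map S.subtype (MonoidHom.id (FreeGroup Y)) (wval (coefS S) varT w) = evalT w := by
  induction w with
  | nil => simp [evalT]
  | cons σ w ih =>
    have hw' : Valid S w := fun g hg => hw g (List.mem_cons_of_mem _ hg)
    have e : evalT (σ :: w) = lval inT varT σ * evalT w := by simp [evalT]
    rw [wval_cons, map_mul, ih hw', e]
    congr 1
    rcases σ with g | ⟨y, b⟩
    · have hg : g ∈ S := hw g List.mem_cons_self
      simp [lval, coefS_of_mem S hg, inT]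
    · cases b <;> simp [lval, varT]

theorem xi_evalE (S : Subgroup G) {Y I : Type u} (r : I → List (Letter G Y))
    (E : List (List (Letter G Y) × I × Bool))
    (hE : ∀ e ∈ E, Valid S e.1 ∧ Valid S (r e.2.1)) :
    Coprod.map S.subtype (MonoidHom.id (FreeGroup Y)) (evalE (coefS S) varT r E)
      = evalE inT varT r E := by
  induction E with
  | nil => simp
  | cons e E ih =>
    have he := hE e List.mem_cons_self
    rw [evalE_cons, map_mul, ih (fun e' he' => hE e' (List.mem_cons_of_mem _ he')), evalE_cons]
    congr 1
    simp only [blk, map_mul, map_inv, map_sgn]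
    rw [xi_wval S _ he.1, xi_wval S _ he.2]
    rfl

theorem liftW_coef {A : Type} [CommGroup A] {Y : Type u} (sec : A → G) (hf : G → A) (hx : Y → A)
    (γ : List (Letter G Y)) (hγc : ∀ σ ∈ γ, ∃ g, σ = Letter.coef g) (h : A) :
    ∀ σ ∈ liftW sec hf hx γ h, ∃ g, σ = Letter.coef g := by
  induction γ generalizing h with
  | nil => simp
  | cons τ γ ih =>
    intro σ hσ
    rw [liftW_cons, List.mem_append] at hσ
    rcases hσ with hσ | hσ
    · obtain ⟨g, rfl⟩ := hγc τ List.mem_cons_self
      simp only [liftL] at hσ
      split_ifs at hσ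
      · simp at hσ
      · simp only [List.mem_singleton] at hσ
        exact ⟨_, hσ⟩
    · exact ih (fun σ' h' => hγc σ' (List.mem_cons_of_mem _ h')) _ σ hσ

/-- The main induction on the number of coefficient letters. -/
theorem tower
    (hTop : ∀ S : Subgroup G, S.FG → (∀ χ : S →* Multiplicative (ZMod p), χ = 1) →
      HowiePropertyMod p S) (k : ℕ) :
    ∀ (Y I : Type u) (r : I → List (Letter G Y)),
      LinearIndependent (ZMod p) (fun i => row (ZMod p) (r i)) →
      ∀ (E : List (List (Letter G Y) × I × Bool)) (γ : List (Letter G Y)),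
      (∀ σ ∈ γ, ∃ g, σ = Letter.coef g) →
      cnt γ + (E.map fun e => cnt e.1 + cnt (r e.2.1)).sum < k →
      evalT γ = evalE inT varT r E → evalT γ = 1 := by
  induction k with
  | zero =>
    intro Y I r hr E γ hγc hw hid
    exact absurd hw (Nat.not_lt_zero _)
  | succ k ih =>
    classical
    intro Y I r hr E γ hγc hw hid
    let allW : List (Letter G Y) := γ ++ E.flatMap (fun e => e.1 ++ r e.2.1)
    let L : Set G := {g | Letter.coef g ∈ allW}
    have hLfin : L.Finite := by
      have h1 : (fun g : G => (Letter.coef g : Letter G Y)) ⁻¹' {σ | σ ∈ allW} = L := rfl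
      rw [← h1]
      apply Set.Finite.preimage
      · intro a _ b _ hab
        exact Letter.coef.inj hab
      · exact List.finite_toSet allW
    let S : Subgroup G := Subgroup.closure L
    have hSfg : S.FG := by
      rw [Subgroup.fg_iff]
      exact ⟨L, rfl, hLfin⟩
    have hvγ : Valid S γ := by
      intro g hg
      apply Subgroup.subset_closure
      simp only [L, allW, Set.mem_ofPred_eq, List.mem_append]
      exact Or.inl hg
    have hvE : ∀ e ∈ E, Valid S e.1 ∧ Valid S (r e.2.1) := by
      intro e he
      constructor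
      · intro g hg
        apply Subgroup.subset_closure
        simp only [L, allW, Set.mem_ofPred_eq, List.mem_append, List.mem_flatMap]
        exact Or.inr ⟨e, he, Or.inl hg⟩
      · intro g hg
        apply Subgroup.subset_closure
        simp only [L, allW, Set.mem_ofPred_eq, List.mem_append, List.mem_flatMap]
        exact Or.inr ⟨e, he, Or.inr hg⟩
    have hidS : wval (coefS S) varT γ = evalE (coefS S) varT r E := by
      apply coprodMap_injective S (FreeGroup Y)
      rw [xi_wval S γ hvγ, xi_evalE S r E hvE, hid]
    by_cases hfree : ∀ χ : S →* Multiplicative (ZMod p), χ = 1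
    · have h1 := top_case (hTop S hSfg hfree) r hr E γ hγc hvγ hidS
      rw [← xi_wval S γ hvγ, h1, map_one]
    · push Not at hfree
      obtain ⟨χ, hχ⟩ := hfree
      -- a generator on which χ is nontrivial
      obtain ⟨g0, hg0L, hg0⟩ : ∃ g0, ∃ hg0L : g0 ∈ L,
          χ ⟨g0, Subgroup.subset_closure hg0L⟩ ≠ 1 := by
        by_contra hcon
        push Not at hcon
        apply hχ
        ext ⟨x, hx⟩
        have : ∀ x (hx : x ∈ S), χ ⟨x, hx⟩ = 1 := by
          intro x hx
          induction hx using Subgroup.closure_induction with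
          | mem x hx => exact hcon x hx
          | one => exact map_one χ
          | mul a b ha hb iha ihb =>
            have : (⟨a * b, S.mul_mem ha hb⟩ : S) = ⟨a, ha⟩ * ⟨b, hb⟩ := rfl
            rw [this, map_mul, iha, ihb, one_mul]
          | inv a ha iha =>
            have : (⟨a⁻¹, S.inv_mem ha⟩ : S) = (⟨a, ha⟩ : S)⁻¹ := rfl
            rw [this, map_inv, iha, inv_one]
        simp [this x hx]
      let s : Finset I := (E.map fun e => e.2.1).toFinset
      obtain ⟨hx, hhx⟩ := exists_hx χ r hr s
      have hr1 : ∀ e ∈ E, wval (hgt χ) hx (r e.2.1) = 1 := by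
        intro e he
        apply hhx
        simp only [s, List.mem_toFinset, List.mem_map]
        exact ⟨e, he, rfl⟩
      have hg0S : g0 ∈ S := Subgroup.subset_closure hg0L
      have hf0 : hgt χ g0 ≠ 1 := by
        rw [hgt_of_mem χ hg0S]
        exact hg0
      -- the weights
      let wt : (Multiplicative (ZMod p) → G) → ℕ := fun sec =>
        cnt (liftW sec (hgt χ) hx γ 1) + (E.map fun e => cnt (liftW sec (hgt χ) hx e.1 1)
          + cnt (liftW sec (hgt χ) hx (r e.2.1) (wval (hgt χ) hx e.1))).sum
      have hle : ∀ sec, (E.map fun e => cnt (liftW sec (hgt χ) hx e.1 1)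
          + cnt (liftW sec (hgt χ) hx (r e.2.1) (wval (hgt χ) hx e.1))).sum
          ≤ (E.map fun e => cnt e.1 + cnt (r e.2.1)).sum := by
        intro sec
        apply List.sum_le_sum
        intro e _
        exact add_le_add (cnt_liftW_le _ _ _ _ _) (cnt_liftW_le _ _ _ _ _)
      have hocc : ∃ h0 : Multiplicative (ZMod p), ∀ sec : Multiplicative (ZMod p) → G,
          sec h0 * g0 * (sec (h0 * hgt χ g0))⁻¹ = 1 →
          wt sec < cnt γ + (E.map fun e => cnt e.1 + cnt (r e.2.1)).sum := by
        have hmem : Letter.coef g0 ∈ allW := hg0L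
        simp only [allW, List.mem_append, List.mem_flatMap] at hmem
        rcases hmem with hmem | ⟨e, he, hmem | hmem⟩
        · obtain ⟨h0, hh0⟩ := cnt_liftW_lt g0 (hgt χ) hx γ hmem 1
          refine ⟨h0, fun sec hsec => ?_⟩
          have h1 := hh0 sec hsec
          have h2 := hle sec
          simp only [wt]
          omega
        · obtain ⟨h0, hh0⟩ := cnt_liftW_lt g0 (hgt χ) hx e.1 hmem 1
          refine ⟨h0, fun sec hsec => ?_⟩
          have h1 := hh0 sec hsec
          have h2 : (E.map fun e => cnt (liftW sec (hgt χ) hx e.1 1)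
              + cnt (liftW sec (hgt χ) hx (r e.2.1) (wval (hgt χ) hx e.1))).sum
              < (E.map fun e => cnt e.1 + cnt (r e.2.1)).sum := by
            apply List.sum_lt_sum
            · intro e' _
              exact add_le_add (cnt_liftW_le _ _ _ _ _) (cnt_liftW_le _ _ _ _ _)
            · exact ⟨e, he, by
                have := cnt_liftW_le sec (hgt χ) hx (r e.2.1) (wval (hgt χ) hx e.1)
                omega⟩
          have h3 := cnt_liftW_le sec (hgt χ) hx γ 1
          simp only [wt]
          omega
        · obtain ⟨h0, hh0⟩ := cnt_liftW_lt g0 (hgt χ) hx (r e.2.1) hmem (wval (hgt χ) hx e.1)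
          refine ⟨h0, fun sec hsec => ?_⟩
          have h1 := hh0 sec hsec
          have h2 : (E.map fun e => cnt (liftW sec (hgt χ) hx e.1 1)
              + cnt (liftW sec (hgt χ) hx (r e.2.1) (wval (hgt χ) hx e.1))).sum
              < (E.map fun e => cnt e.1 + cnt (r e.2.1)).sum := by
            apply List.sum_lt_sum
            · intro e' _
              exact add_le_add (cnt_liftW_le _ _ _ _ _) (cnt_liftW_le _ _ _ _ _)
            · exact ⟨e, he, by
                have := cnt_liftW_le sec (hgt χ) hx e.1 1
                omega⟩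
          have h3 := cnt_liftW_le sec (hgt χ) hx γ 1
          simp only [wt]
          omega
      obtain ⟨h0, hh0⟩ := hocc
      let sec : Multiplicative (ZMod p) → G := Function.update (fun _ => 1) (h0 * hgt χ g0) g0
      have hne : h0 ≠ h0 * hgt χ g0 := by
        intro e
        apply hf0
        have : h0 * hgt χ g0 = h0 * 1 := by rw [mul_one]; exact e.symm
        exact mul_left_cancel this
      have hsec1 : sec h0 = 1 := by
        simp [sec, Function.update_of_ne hne]
      have hsec2 : sec (h0 * hgt χ g0) = g0 := by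
        simp [sec]
      have hkill : sec h0 * g0 * (sec (h0 * hgt χ g0))⁻¹ = 1 := by
        rw [hsec1, hsec2]
        simp
      have hlt := hh0 sec hkill
      have hE' : ∀ e ∈ E, Valid S e.1 ∧ Valid S (r e.2.1) ∧ wval (hgt χ) hx (r e.2.1) = 1 :=
        fun e he => ⟨(hvE e he).1, (hvE e he).2, hr1 e he⟩
      have hlift := lift_identity χ hx sec r E γ hvγ hE' hidS
      have hψ : wval (hgt χ) hx γ = 1 := by
        rw [← psi_wval χ hx γ, hidS]
        exact hgt_evalE χ hx r E hr1
      have hnew := ih (Y × Multiplicative (ZMod p)) (I × Multiplicative (ZMod p))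
        (fun q => liftW sec (hgt χ) hx (r q.1) q.2)
        (rows_lift_independent sec (hgt χ) hx r hr)
        (E.map fun e => (liftW sec (hgt χ) hx e.1 1, (e.2.1, wval (hgt χ) hx e.1), e.2.2))
        (liftW sec (hgt χ) hx γ 1)
        (liftW_coef sec (hgt χ) hx γ hγc 1)
        (by
          have : cnt (liftW sec (hgt χ) hx γ 1)
              + ((E.map fun e => (liftW sec (hgt χ) hx e.1 1, (e.2.1, wval (hgt χ) hx e.1), e.2.2)).map
                fun e => cnt e.1 + cnt (liftW sec (hgt χ) hx (r e.2.1.1) e.2.1.2)).sum = wt sec := by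
            simp [wt, Function.comp_def]
          rw [this]
          omega)
        hlift
      exact eq_one_of_lift_eq_one sec (hgt χ) hx γ hψ hnew

end Tower

end Vale.Agent.Lib.P174
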