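import Mathlib

/-!
Words over a group `G` and a set `Y` of unknowns, their values in a group,
and the height-indexed rewriting of words used in the cover tower.
-/

namespace Vale.Agent.Lib.P174

open Monoid

universe u

/-- A letter: a coefficient from `G`, or an unknown from `Y` or its inverse. -/
inductive Letter (G Y : Type u) : Type u
  | coef : G → Letter G Y
  | var : Y → Bool → Letter G Y

section Val

variable {G Y : Type u} {P : Type*} [Group P]

/-- Value of a letter. -/
def lval (f : G → P) (x : Y → P) : Letter G Y → P
  | .coef g => f g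
  | .var y true => x y
  | .var y false => (x y)⁻¹

/-- Value of a word. -/
def wval (f : G → P) (x : Y → P) (w : List (Letter G Y)) : P := (w.map (lval f x)).prod

@[simp] theorem wval_nil (f : G → P) (x : Y → P) : wval f x [] = 1 := rfl

@[simp] theorem wval_cons (f : G → P) (x : Y → P) (σ : Letter G Y) (w : List (Letter G Y)) :
    wval f x (σ :: w) = lval f x σ * wval f x w := by
  simp [wval]

@[simp] theorem wval_append (f : G → P) (x : Y → P) (v w : List (Letter G Y)) :
    wval f x (v ++ w) = wval f x v * wval f x w := by
  simp [wval]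

theorem map_lval {P' : Type*} [Group P'] (φ : P →* P') (f : G → P) (x : Y → P) (σ : Letter G Y) :
    φ (lval f x σ) = lval (φ ∘ f) (φ ∘ x) σ := by
  rcases σ with g | ⟨y, b⟩
  · rfl
  · cases b <;> simp [lval]

theorem map_wval {P' : Type*} [Group P'] (φ : P →* P') (f : G → P) (x : Y → P)
    (w : List (Letter G Y)) : φ (wval f x w) = wval (φ ∘ f) (φ ∘ x) w := by
  induction w with
  | nil => simp
  | cons σ w ih => simp [map_lval, ih]

/-- The sign operation. -/
def sgn (b : Bool) (a : P) : P := if b then a else a⁻¹

@[simp] theorem sgn_true (a : P) : sgn true a = a := rfl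
@[simp] theorem sgn_false (a : P) : sgn false a = a⁻¹ := rfl

theorem map_sgn {P' : Type*} [Group P'] (φ : P →* P') (b : Bool) (a : P) :
    φ (sgn b a) = sgn b (φ a) := by
  cases b <;> simp

variable {I : Type u}

/-- One conjugate of a relator or its inverse. -/
def blk (f : G → P) (x : Y → P) (r : I → List (Letter G Y))
    (e : List (Letter G Y) × I × Bool) : P :=
  wval f x e.1 * sgn e.2.2 (wval f x (r e.2.1)) * (wval f x e.1)⁻¹

/-- Value of a product of conjugates of relators and inverses of relators. -/
def evalE (f : G → P) (x : Y → P) (r : I → List (Letter G Y))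
    (E : List (List (Letter G Y) × I × Bool)) : P :=
  (E.map (blk f x r)).prod

@[simp] theorem evalE_nil (f : G → P) (x : Y → P) (r : I → List (Letter G Y)) :
    evalE f x r [] = 1 := rfl

@[simp] theorem evalE_cons (f : G → P) (x : Y → P) (r : I → List (Letter G Y))
    (e : List (Letter G Y) × I × Bool) (E : List (List (Letter G Y) × I × Bool)) :
    evalE f x r (e :: E) = blk f x r e * evalE f x r E := by
  simp [evalE]

@[simp] theorem evalE_append (f : G → P) (x : Y → P) (r : I → List (Letter G Y))
    (E E' : List (List (Letter G Y) × I × Bool)) :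
    evalE f x r (E ++ E') = evalE f x r E * evalE f x r E' := by
  simp [evalE]

theorem map_evalE {P' : Type*} [Group P'] (φ : P →* P') (f : G → P) (x : Y → P)
    (r : I → List (Letter G Y)) (E : List (List (Letter G Y) × I × Bool)) :
    φ (evalE f x r E) = evalE (φ ∘ f) (φ ∘ x) r E := by
  induction E with
  | nil => simp
  | cons e E ih =>
    simp only [evalE_cons, map_mul, ih]
    simp [blk, map_wval, map_sgn]

end Val

/-- The number of coefficient letters in a word. -/
def cnt {G Y : Type u} : List (Letter G Y) → ℕ
  | [] => 0
  | .coef _ :: w => cnt w + 1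
  | .var _ _ :: w => cnt w

@[simp] theorem cnt_nil {G Y : Type u} : cnt ([] : List (Letter G Y)) = 0 := rfl

@[simp] theorem cnt_append {G Y : Type u} (v w : List (Letter G Y)) :
    cnt (v ++ w) = cnt v + cnt w := by
  induction v with
  | nil => simp
  | cons σ v ih =>
    rcases σ with g | ⟨y, b⟩
    · simp [cnt, ih]; omega
    · simp [cnt, ih]

section Lift

variable {G Y : Type u} [Group G] {A : Type} [CommGroup A]

open Classical in
/-- The rewriting of one letter read from height `h`. -/
noncomputable def liftL (sec : A → G) (hf : G → A) (hx : Y → A) :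
    Letter G Y → A → List (Letter G (Y × A))
  | .coef g, h =>
      if sec h * g * (sec (h * hf g))⁻¹ = 1 then []
      else [.coef (sec h * g * (sec (h * hf g))⁻¹)]
  | .var y true, h => [.var (y, h) true]
  | .var y false, h => [.var (y, h * (hx y)⁻¹) false]

/-- The rewriting of a word read from height `h`. -/
noncomputable def liftW (sec : A → G) (hf : G → A) (hx : Y → A) :
    List (Letter G Y) → A → List (Letter G (Y × A))
  | [], _ => []
  | σ :: w, h => liftL sec hf hx σ h ++ liftW sec hf hx w (h * lval hf hx σ)

@[simp] theorem liftW_nil (sec : A → G) (hf : G → A) (hx : Y → A) (h : A) :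
    liftW sec hf hx ([] : List (Letter G Y)) h = [] := rfl

@[simp] theorem liftW_cons (sec : A → G) (hf : G → A) (hx : Y → A) (σ : Letter G Y)
    (w : List (Letter G Y)) (h : A) :
    liftW sec hf hx (σ :: w) h = liftL sec hf hx σ h ++ liftW sec hf hx w (h * lval hf hx σ) := rfl

theorem cnt_liftL_le (sec : A → G) (hf : G → A) (hx : Y → A) (σ : Letter G Y) (h : A) :
    cnt (liftL sec hf hx σ h) ≤ cnt [σ] := by
  rcases σ with g | ⟨y, b⟩
  · simp only [liftL]
    split_ifs <;> simp [cnt]
  · cases b <;> simp [liftL, cnt]

theorem cnt_liftW_le (sec : A → G) (hf : G → A) (hx : Y → A) (w : List (Letter G Y)) (h : A) :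
    cnt (liftW sec hf hx w h) ≤ cnt w := by
  induction w generalizing h with
  | nil => simp
  | cons σ w ih =>
    have h1 := cnt_liftL_le sec hf hx σ h
    have h2 := ih (h * lval hf hx σ)
    have h3 : cnt (σ :: w) = cnt [σ] + cnt w := by
      have := cnt_append [σ] w
      simpa using this
    simp only [liftW_cons, cnt_append, h3]
    omega

theorem cnt_liftW_lt (sec0 : G) (hf : G → A) (hx : Y → A) (w : List (Letter G Y))
    (hmem : Letter.coef sec0 ∈ w) (h : A) :
    ∃ h0 : A, ∀ sec : A → G, sec h0 * sec0 * (sec (h0 * hf sec0))⁻¹ = 1 →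
      cnt (liftW sec hf hx w h) < cnt w := by
  induction w generalizing h with
  | nil => simp at hmem
  | cons σ w ih =>
    have h3 : cnt (σ :: w) = cnt [σ] + cnt w := by
      have := cnt_append [σ] w
      simpa using this
    by_cases hσ : σ = Letter.coef sec0
    · subst hσ
      refine ⟨h, fun sec hsec => ?_⟩
      have h2 := cnt_liftW_le sec hf hx w (h * lval hf hx (Letter.coef sec0))
      have h1 : cnt [Letter.coef (Y := Y) sec0] = 1 := rfl
      simp only [liftW_cons, cnt_append, h3, h1]
      simp only [liftL, hsec, if_true]
      simp only [cnt_nil]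
      omega
    · have hmem' : Letter.coef sec0 ∈ w := by
        rcases List.mem_cons.mp hmem with h' | h'
        · exact absurd h'.symm hσ
        · exact h'
      obtain ⟨h0, hh0⟩ := ih hmem' (h * lval hf hx σ)
      refine ⟨h0, fun sec hsec => ?_⟩
      have h1 := cnt_liftL_le sec hf hx σ h
      have h2 := hh0 sec hsec
      simp only [liftW_cons, cnt_append, h3]
      omega

end Lift

end Vale.Agent.Lib.P174
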